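import Vale.Agent.P148.R2.H938.Sq

/-!
# The quenched one-arm bound for a configuration (R1)
-/

open Set Metric P148

namespace Vale.Agent.P148.R2.H938

open Vale.Agent.P148.R2.H995 (Turn nsup centre HPArm SqArm)
open Vale.Agent.P148.R2.H592 (nbr vcell HullTri XU Generic bfar)
open Vale.Agent.P148.R2.H847 (qpr UArm)
open Vale.Agent.P148.R2.H291 (GoodAt Stab)

theorem norm_bfar {ρ : ℝ} (hρ : 0 ≤ ρ) (j : ZMod 3) : ‖bfar ρ j‖ = ρ := by
  have h3 : Real.sqrt 3 ^ 2 = 3 := Real.sq_sqrt (by norm_num)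
  have key : ∀ z : ℂ, z.re ^ 2 + z.im ^ 2 = ρ ^ 2 → ‖z‖ = ρ := by
    intro z hz
    have h1 : ‖z‖ ^ 2 = ρ ^ 2 := by
      rw [← Complex.normSq_eq_norm_sq, Complex.normSq_apply, ← hz]; ring
    exact (pow_left_inj₀ (norm_nonneg _) hρ two_ne_zero).1 h1
  have hj : j = 0 ∨ j = 1 ∨ j = 2 := by revert j; decide
  rcases hj with rfl | rfl | rfl
  · apply key
    show ρ ^ 2 + 0 ^ 2 = ρ ^ 2
    ring
  · apply key
    show (- ρ / 2) ^ 2 + (ρ * (Real.sqrt 3 / 2)) ^ 2 = ρ ^ 2
    linear_combination ρ ^ 2 / 4 * h3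
  · apply key
    show (- ρ / 2) ^ 2 + (- (ρ * (Real.sqrt 3 / 2))) ^ 2 = ρ ^ 2
    linear_combination ρ ^ 2 / 4 * h3

theorem rtg_of_path {α : Type*} {R : α → α → Prop} {n : ℕ} {v : ℕ → α}
    (h : ∀ i < n, R (v i) (v (i + 1))) : Relation.ReflTransGen R (v 0) (v n) := by
  induction n with
  | zero => exact Relation.ReflTransGen.refl
  | succ n ih => exact (ih fun i hi => h i (by omega)).tail (h n (by omega))

/-- Restriction of an arm to a ball, with a change of the adjacency. -/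
theorem uarm_restrict {Y X W : Set ℂ} {p : ℂ} {ρ δ e : ℝ} (hδ : δ < ρ)
    (hedge : ∀ u v, nbr Y u v → dist u p < ρ → dist u v ≤ e)
    (hadj : ∀ u v, nbr Y u v → dist u p < ρ → nbr X u v)
    (h : UArm Y W (closedBall p δ) (ball p ρ)ᶜ) :
    UArm X (W ∩ closedBall p (ρ + e)) (closedBall p δ) (ball p ρ)ᶜ := by
  classical
  obtain ⟨x, hx, hxW, z, hz, hxz⟩ := h
  obtain ⟨n, v, hv0, hvn, hv⟩ := exists_path hxz
  rw [mem_compl_iff, mem_ball, not_lt] at hz
  rw [mem_closedBall] at hx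
  have hex : ∃ i, ρ ≤ dist (v i) p := ⟨n, by rw [hvn]; exact hz⟩
  set b := Nat.find hex with hb
  have hbR : ρ ≤ dist (v b) p := Nat.find_spec hex
  have hbn : b ≤ n := Nat.find_min' hex (by rw [hvn]; exact hz)
  have hlt : ∀ i < b, dist (v i) p < ρ := fun i hi => not_le.1 (Nat.find_min hex hi)
  have hb0 : b ≠ 0 := by
    intro h0
    rw [h0, hv0] at hbR
    linarith
  have hmem : ∀ i ≤ n, v i ∈ W := path_mem (R := fun a b => nbr Y a b) (by rw [hv0]; exact hxW) hv
  have he0 : 0 ≤ e := by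
    have := hedge _ _ (hv 0 (by omega)).1 (hlt 0 (by omega))
    exact dist_nonneg.trans this
  have hball : ∀ i ≤ b, v i ∈ closedBall p (ρ + e) := by
    intro i hi
    rw [mem_closedBall]
    rcases hi.lt_or_eq with h1 | h1
    · have := hlt i h1
      linarith
    · rw [h1]
      have h2 := hlt (b - 1) (by omega)
      have h3 := hedge _ _ (hv (b - 1) (by omega)).1 h2
      rw [Nat.sub_add_cancel (by omega : 1 ≤ b), dist_comm] at h3
      have := dist_triangle (v b) (v (b - 1)) p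
      linarith
  refine ⟨v 0, by rw [hv0]; exact hx, ⟨hmem 0 (by omega), hball 0 (by omega)⟩, v b, ?_, ?_⟩
  · rw [mem_compl_iff, mem_ball, not_lt]
    exact hbR
  · apply rtg_of_path
    intro i hi
    exact ⟨hadj _ _ (hv i (by omega)).1 (hlt i hi), ⟨hmem i (by omega), hball i (by omega)⟩,
      ⟨hmem (i + 1) (by omega), hball (i + 1) (by omega)⟩⟩

/-- Transfer of the probability of an increasing event which depends on the points of a set. -/
theorem cp_inter_le {α : Type*} {N X G : Set α} (hN : N.Finite) (hX : X.Finite) (h : N ∩ G ⊆ X)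
    {Q : Set α → Prop} (hQ : ∀ W W', W ⊆ W' → Q W → Q W') :
    cp N (fun W => Q (W ∩ G)) ≤ cp X Q := by
  have h1 : cp N (fun W => Q (W ∩ G)) = cp N (fun W => Q (W ∩ (N ∩ G))) := by
    apply cp_congr
    intro W hW
    rw [← inter_assoc, inter_eq_left.2 hW]
  have h2 : cp N (fun W => Q (W ∩ (N ∩ G))) = cp (N ∩ G) (fun W => Q (W ∩ (N ∩ G))) :=
    cp_restrict hN inter_subset_left fun W => by rw [inter_assoc, inter_self]
  have h3 : cp (N ∩ G) (fun W => Q (W ∩ (N ∩ G))) = cp (N ∩ G) Q :=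
    cp_congr fun W hW => by rw [inter_eq_left.2 hW]
  rw [h1, h2, h3]
  exact cp_mono_set hX h hQ

/-- The scales. -/
noncomputable def rad (ρ : ℝ) (i : ℕ) : ℝ := ρ / 6 / 4 ^ i

theorem rad_pos {ρ : ℝ} (hρ : 0 < ρ) (i : ℕ) : 0 < rad ρ i := by unfold rad; positivity

theorem rad_anti {ρ : ℝ} (hρ : 0 < ρ) {i j : ℕ} (h : i ≤ j) : rad ρ j ≤ rad ρ i := by
  unfold rad
  apply div_le_div_of_nonneg_left (by positivity) (by positivity)
  exact pow_le_pow_right₀ (by norm_num) h

theorem rad_le {ρ : ℝ} (hρ : 0 < ρ) (i : ℕ) : rad ρ i ≤ ρ / 6 := by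
  have := rad_anti hρ (Nat.zero_le i)
  rwa [rad, rad, pow_zero, div_one] at this

/-- The centres. -/
noncomputable def cen (p : ℂ) (r : ℝ) (J : ℕ) (a : ℂ × ℤ) : ℂ :=
  centre p a.1 r (3 * (2 * r / 2 ^ J / 16)) (2 * r / 2 ^ J / 4) a.2

theorem arm_prod' {X : Set ℂ} (hX : X.Finite) {p : ℂ} {ρ δ e q : ℝ} (hρ : 0 < ρ) (m : ℕ)
    (hδ : δ ≤ rad ρ m) (he : e ≤ rad ρ m / 8 / 2)
    (hedge : ∀ u v, nbr X u v → dist u p < ρ → dist u v ≤ e)
    (hq : ∀ i < m, cp X (fun W => SqArm (nbr X) (W ∩ Ann p (rad ρ i)) p (rad ρ i)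
      (3 * rad ρ i)) ≤ q) :
    cp X (fun W => UArm X W (closedBall p δ) (ball p ρ)ᶜ) ≤ q ^ m := by
  unfold rad at *
  exact arm_prod hX hρ m hδ he hedge hq

/-- **The quenched one-arm bound.** -/
theorem quenched_arm (hHP : HP) {T : Set Pt} {p : ℂ} {ρ C s R0 ρb : ℝ} {J m : ℕ} (hρ : 0 < ρ)
    (hJ : 1 ≤ J) (hC : 272 * C / J ≤ 1 / 2) (hs : 0 < s) (hs' : s ≤ rad ρ m / 4 / 2 ^ J)
    (hR0 : ‖p‖ + 2 * ρ ≤ R0) (hρb : 2 * (R0 + 6 * s) ≤ ρb) (hT : Generic T (bfar ρb))
    (hst : ∀ z ∈ closedBall (0 : ℂ) R0, Stab (pts T) z s)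
    (hgood : ∀ i < m, ∀ a ∈ idx J,
      GoodAt (pts T) (cen p (rad ρ i) J a) (2 * rad ρ i / 2 ^ J) J C)
    {N : Set ℂ} (hN : N ⊆ pts T) (hNf : N.Finite) :
    qpr N (fun W => UArm (pts T) W (closedBall p (rad ρ m)) (ball p ρ)ᶜ) ≤ (1 - p0 J) ^ m := by
  have h2J : (1 : ℝ) ≤ 2 ^ J := one_le_pow₀ (by norm_num)
  have hrm := rad_pos hρ m
  have hrm' := rad_le hρ m
  have hs1 : s ≤ rad ρ m / 4 := hs'.trans (div_le_self (by positivity) h2J)
  have hR00 : 0 < R0 := by
    have := norm_nonneg p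
    linarith
  have hρb0 : 0 < ρb := by linarith
  set U : Set ℂ := closedBall (0 : ℂ) (R0 + 5 * s) with hU
  set X : Set ℂ := XU T U (bfar ρb) with hX
  have hull : HullTri X (bfar ρb) := by
    apply hT.hullTri_ball hρb0
    intro z hz
    rw [hU, mem_closedBall] at hz
    rw [mem_ball]
    linarith
  have hbn : ∀ j, R0 + 5 * s < ‖bfar ρb j‖ := by
    intro j
    rw [norm_bfar hρb0.le]
    linarith
  have hXY : ∀ {D : Set ℂ}, D ⊆ closedBall 0 (R0 + 5 * s) → pts T ∩ D = X ∩ D := fun hD =>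
    H291.inter_XU (subset_refl _) hbn hD
  have hstX : ∀ z ∈ closedBall (0 : ℂ) R0, Stab X z s := by
    intro z hz
    refine (hst z hz).congr hs ?_
    rw [hXY (D := closedBall z (5 * s))]
    · exact inter_subset_left
    · refine closedBall_subset_closedBall' ?_
      rw [mem_closedBall] at hz
      linarith
  have hpR : ∀ u : ℂ, dist u p < ρ → u ∈ closedBall (0 : ℂ) R0 := by
    intro u hu
    rw [mem_closedBall, dist_zero_right]
    have h1 := norm_le_norm_add_norm_sub' u p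
    rw [← Complex.dist_eq] at h1
    linarith
  -- edges and adjacency
  have hedgeT : ∀ u v, nbr (pts T) u v → dist u p < ρ → dist u v ≤ s / 4 := by
    intro u v huv hu
    exact H291.dist_adj_le (hst u (hpR u hu)) hs (H291.nbr_iff_adj.1 huv)
  have hedgeX : ∀ u v, nbr X u v → dist u p < ρ → dist u v ≤ s / 4 := by
    intro u v huv hu
    exact H291.dist_adj_le (hstX u (hpR u hu)) hs (H291.nbr_iff_adj.1 huv)
  have hadj : ∀ u v, nbr (pts T) u v → dist u p < ρ → nbr X u v := by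
    intro u v huv hu
    have hu' := hpR u hu
    refine H291.nbr_iff_adj.2 (H291.adj_congr (hstX u hu') hs (hXY ?_).symm
      (H291.nbr_iff_adj.1 huv))
    refine closedBall_subset_closedBall' ?_
    rw [mem_closedBall] at hu'
    linarith
  -- transfer
  have hδρ : rad ρ m < ρ := by linarith
  rw [qpr_eq_cp]
  have h1 : cp N (fun W => UArm (pts T) W (closedBall p (rad ρ m)) (ball p ρ)ᶜ) ≤
      cp N (fun W => UArm X (W ∩ closedBall p (ρ + s / 4)) (closedBall p (rad ρ m))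
        (ball p ρ)ᶜ) :=
    cp_mono hNf fun W _ h => uarm_restrict hδρ hedgeT hadj h
  have h2 : cp N (fun W => UArm X (W ∩ closedBall p (ρ + s / 4)) (closedBall p (rad ρ m))
      (ball p ρ)ᶜ) ≤ cp X (fun W => UArm X W (closedBall p (rad ρ m)) (ball p ρ)ᶜ) := by
    refine cp_inter_le (G := closedBall p (ρ + s / 4))
      (Q := fun W => UArm X W (closedBall p (rad ρ m)) (ball p ρ)ᶜ) hNf hull.fin ?_
      (fun W W' hWW' h => UArm.mono h (fun _ _ _ _ h => h) hWW' subset_rfl subset_rfl)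
    rintro x ⟨hxN, hxG⟩
    have h3 : x ∈ pts T ∩ closedBall p (ρ + s / 4) := ⟨hN hxN, hxG⟩
    rw [hXY] at h3
    · exact h3.1
    · refine closedBall_subset_closedBall' ?_
      rw [dist_zero_right]
      linarith
  refine h1.trans (h2.trans ?_)
  -- the product bound
  have hq : ∀ i < m, cp X (fun W => SqArm (nbr X) (W ∩ Ann p (rad ρ i)) p (rad ρ i)
      (3 * rad ρ i)) ≤ 1 - p0 J := by
    intro i hi
    have hri := rad_pos hρ i
    have hri' := rad_le hρ i
    have hrmi := rad_anti hρ hi.le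
    have hl1 : 2 ^ J * (2 * rad ρ i / 2 ^ J) = 2 * rad ρ i := by field_simp
    apply sq_arm_le hHP hull hri hJ hC
    · intro a ha
      obtain ⟨ha1, ha2⟩ := mem_idx.1 ha
      have hk := dist_centre_le (p := p) ha1 hri ha2
      have hk0 : ‖cen p (rad ρ i) J a‖ ≤ ‖p‖ + 9 / 2 * rad ρ i := by
        have h3 := norm_le_norm_add_norm_sub' (cen p (rad ρ i) J a) p
        rw [← Complex.dist_eq] at h3
        exact h3.trans (add_le_add le_rfl hk)
      refine (hgood i hi a ha).congr (by positivity) hs ?_ (hXY ?_)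
      · rw [hl1]
        intro x hx
        apply hst
        rw [mem_closedBall, dist_zero_right]
        rw [mem_closedBall] at hx
        have h3 := norm_le_norm_add_norm_sub' x (cen p (rad ρ i) J a)
        rw [← Complex.dist_eq] at h3
        linarith
      · rw [hl1]
        refine closedBall_subset_closedBall' ?_
        rw [dist_zero_right]
        show 2 * rad ρ i + 5 * s + ‖cen p (rad ρ i) J a‖ ≤ _
        linarith
    · intro z hz x hx hzx
      have hz0 : z ∈ closedBall (0 : ℂ) R0 := by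
        rw [mem_closedBall, dist_zero_right]
        rw [mem_closedBall] at hz
        have h3 := norm_le_norm_add_norm_sub' z p
        rw [← Complex.dist_eq] at h3
        linarith
      have h4 : dist z x ≤ s / 8 :=
        (hstX z hz0).dist_le (mem_closedBall_self (by positivity)) hzx
      refine h4.trans ?_
      have h5 : rad ρ m / 4 / 2 ^ J ≤ rad ρ i / 4 / 2 ^ J := by gcongr
      have h6 : 2 * rad ρ i / 2 ^ J / 16 = rad ρ i / 4 / 2 ^ J / 2 := by
        field_simp; norm_num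
      rw [h6]
      have h7 : 0 < rad ρ i / 4 / 2 ^ J := by positivity
      linarith
    · intro j
      have h3 := norm_bfar hρb0.le j
      have h4 := norm_le_norm_add_norm_sub' (bfar ρb j) p
      rw [← Complex.dist_eq] at h4
      linarith
  exact arm_prod' hull.fin hρ m le_rfl (by linarith) hedgeX hq

end Vale.Agent.P148.R2.H938
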