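import Vale.Agent.P148.R2.H847.Whp
import Vale.Agent.P148.R2.H938.One

/-!
# The one-arm bound with high probability (R1/R5), from the half-plane arm bound and the energy bound
-/

open MeasureTheory Set Metric Topology Filter ProbabilityTheory P148
open scoped ENNReal NNReal

namespace Vale.Agent.P148.R2.H938

open Vale.Agent.P148.R2.F (whp ArmStmt)
open Vale.Agent.P148.R2.H995 (Turn nsup centre HPArm SqArm)
open Vale.Agent.P148.R2.H592 (nbr vcell HullTri XU Generic bfar)
open Vale.Agent.P148.R2.H847 (qpr UArm)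
open Vale.Agent.P148.R2.H291 (GoodAt Stab ed)

universe u

/-- The energy bound with high probability, with an absolute constant. -/
def EnergyWhp (C : ℝ) : Prop :=
  ∀ (k : ℂ) (r : ℝ), 0 < r → ∀ᶠ m in whp.{u}, ed 2 (pts m.2) k r ≤ ENNReal.ofReal (C * r ^ 2)

theorem whp_goodAt {C : ℝ} (hC : 0 ≤ C) (hE : EnergyWhp.{u} C) (k : ℂ) {l : ℝ} (hl : 0 < l)
    (J : ℕ) : ∀ᶠ m in whp.{u}, GoodAt (pts m.2) k l J C := by
  have h1 : ∀ᶠ m in whp.{u}, ∀ j ∈ Finset.range (J + 1),
      ed 2 (pts m.2) k (2 ^ j * l) ≤ ENNReal.ofReal (C * (2 ^ j * l) ^ 2) := by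
    rw [Filter.eventually_all_finset]
    intro j _
    exact hE k _ (by positivity)
  filter_upwards [h1] with m hm
  apply H291.goodAt_of_ed hC
  calc ∑ j ∈ Finset.range (J + 1), ENNReal.ofReal (((2 ^ j * l) ^ 2)⁻¹) * ed 2 (pts m.2) k (2 ^ j * l)
      ≤ ∑ j ∈ Finset.range (J + 1), ENNReal.ofReal C := by
        refine Finset.sum_le_sum fun j hj => ?_
        calc ENNReal.ofReal (((2 ^ j * l) ^ 2)⁻¹) * ed 2 (pts m.2) k (2 ^ j * l)
            ≤ ENNReal.ofReal (((2 ^ j * l) ^ 2)⁻¹) * ENNReal.ofReal (C * (2 ^ j * l) ^ 2) := by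
              gcongr
              exact hm j hj
          _ = ENNReal.ofReal C := by
              rw [← ENNReal.ofReal_mul (by positivity)]
              congr 1
              field_simp
    _ = ENNReal.ofReal (C * ((J + 1 : ℕ) : ℝ)) := by
        rw [Finset.sum_const, Finset.card_range, nsmul_eq_mul, ← ENNReal.ofReal_natCast,
          ← ENNReal.ofReal_mul (by positivity), mul_comm]

theorem whp_generic (b : ZMod 3 → ℂ) : ∀ᶠ m in whp.{u}, Generic m.2 b :=
  H847.whp_of_poisson fun _ _ _ _ _ _ _ h => H592.ae_generic h b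

/-- **The one-arm bound.** -/
theorem armStmt (hHP : HP) {C : ℝ} (hC : 0 ≤ C) (hE : EnergyWhp.{u} C) : ArmStmt.{u} := by
  intro ρ hρ ε hε
  obtain ⟨J0, hJ0⟩ := exists_nat_ge (544 * C)
  set J : ℕ := J0 + 1 with hJd
  have hJ : 1 ≤ J := by omega
  have hCJ : 272 * C / J ≤ 1 / 2 := by
    have hJp : (0 : ℝ) < J := by exact_mod_cast hJ
    rw [div_le_iff₀ hJp]
    have : (J0 : ℝ) ≤ J := by rw [hJd]; push_cast; linarith
    linarith
  have hp := p0_pos J
  have hp1 := p0_le J
  obtain ⟨n, hn⟩ := exists_pow_lt_of_lt_one hε (show 1 - p0 J < 1 by linarith)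
  refine ⟨rad ρ n, rad_pos hρ n, fun p => ?_⟩
  set s : ℝ := rad ρ n / 4 / 2 ^ J with hs
  have hs0 : 0 < s := by
    have := rad_pos hρ n
    positivity
  set R0 : ℝ := ‖p‖ + 2 * ρ with hR0
  set ρb : ℝ := 2 * (R0 + 6 * s) with hρb
  have hgood : ∀ᶠ m in whp.{u}, ∀ i ∈ Finset.range n, ∀ a ∈ idx J,
      GoodAt (pts m.2) (cen p (rad ρ i) J a) (2 * rad ρ i / 2 ^ J) J C := by
    rw [Filter.eventually_all_finset]
    intro i _
    rw [Filter.eventually_all_finset]
    intro a _
    have := rad_pos hρ i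
    exact whp_goodAt hC hE _ (by positivity) J
  filter_upwards [whp_generic.{u} (bfar ρb), H847.whp_stab.{u} R0 hs0, hgood] with m h1 h2 h3 N hN hNf
  have key := quenched_arm hHP hρ hJ hCJ hs0 le_rfl le_rfl le_rfl h1 h2
    (fun i hi => h3 i (Finset.mem_range.2 hi)) hN hNf
  exact key.trans hn.le

/-! ### half-plane arms -/

/-- The half-plane arm bound with high probability. -/
def HPStmt : Prop :=
  ∀ q > 0, ∃ κ ≥ (1 : ℝ), ∀ (k ι : ℂ), ‖ι‖ = 1 → ∀ D > 0, ∀ η > 0, ∀ᶠ m in whp.{u},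
    ∀ N ⊆ pts m.2, N.Finite → qpr N (fun W => HPArm (nbr (pts m.2)) W k ι η (D / κ) D) ≤ q

/-- A finite triangulation which agrees with the configuration in a window. -/
theorem exists_env {T : Set Pt} {R0 s ρb : ℝ} (hR0 : 0 < R0) (hs : 0 < s)
    (hρb : 2 * (R0 + 6 * s) ≤ ρb) (hT : Generic T (bfar ρb))
    (hst : ∀ z ∈ closedBall (0 : ℂ) R0, Stab (pts T) z s) :
    ∃ X, HullTri X (bfar ρb) ∧ (∀ D ⊆ closedBall (0 : ℂ) (R0 + 5 * s), pts T ∩ D = X ∩ D) ∧
      (∀ z ∈ closedBall (0 : ℂ) R0, Stab X z s) ∧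
      (∀ u ∈ closedBall (0 : ℂ) R0, ∀ v, nbr (pts T) u v → dist u v ≤ s / 4 ∧ nbr X u v) ∧
      ∀ j, R0 + 5 * s < ‖bfar ρb j‖ := by
  have hρb0 : 0 < ρb := by linarith
  have hbn : ∀ j, R0 + 5 * s < ‖bfar ρb j‖ := by
    intro j
    rw [norm_bfar hρb0.le]
    linarith
  have hXY : ∀ D ⊆ closedBall (0 : ℂ) (R0 + 5 * s), pts T ∩ D =
      XU T (closedBall (0 : ℂ) (R0 + 5 * s)) (bfar ρb) ∩ D := fun D hD =>
    H291.inter_XU (subset_refl _) hbn hD
  have hstX : ∀ z ∈ closedBall (0 : ℂ) R0,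
      Stab (XU T (closedBall (0 : ℂ) (R0 + 5 * s)) (bfar ρb)) z s := by
    intro z hz
    refine (hst z hz).congr hs ?_
    rw [hXY (closedBall z (5 * s))]
    · exact inter_subset_left
    · refine closedBall_subset_closedBall' ?_
      rw [mem_closedBall] at hz
      linarith
  refine ⟨XU T (closedBall (0 : ℂ) (R0 + 5 * s)) (bfar ρb), ?_, hXY, hstX, ?_, hbn⟩
  · apply hT.hullTri_ball hρb0
    intro z hz
    rw [mem_closedBall] at hz
    rw [mem_ball]
    linarith
  · intro u hu v huv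
    refine ⟨H291.dist_adj_le (hst u hu) hs (H291.nbr_iff_adj.1 huv), ?_⟩
    refine H291.nbr_iff_adj.2 (H291.adj_congr (hstX u hu) hs (hXY _ ?_).symm
      (H291.nbr_iff_adj.1 huv))
    refine closedBall_subset_closedBall' ?_
    rw [mem_closedBall] at hu
    linarith

/-- Restriction of a half-plane arm to a ball, with a change of the adjacency. -/
theorem hparm_restrict {Y X W : Set ℂ} {k ι : ℂ} {η ρ D e : ℝ} (hρ : ρ < D)
    (hedge : ∀ u v, nbr Y u v → dist u k < D → dist u v ≤ e)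
    (hadj : ∀ u v, nbr Y u v → dist u k < D → nbr X u v)
    (h : HPArm (nbr Y) W k ι η ρ D) :
    HPArm (nbr X) (W ∩ closedBall k (D + e)) k ι η ρ D := by
  classical
  obtain ⟨n, v, hv, hW, h0, h1⟩ := h
  have hex : ∃ i, D ≤ dist (v i) k := ⟨n, h1⟩
  set b := Nat.find hex with hb
  have hbR : D ≤ dist (v b) k := Nat.find_spec hex
  have hbn : b ≤ n := Nat.find_min' hex h1
  have hlt : ∀ i < b, dist (v i) k < D := fun i hi => not_le.1 (Nat.find_min hex hi)
  have hb0 : b ≠ 0 := by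
    intro h0'
    rw [h0'] at hbR
    linarith
  have he0 : 0 ≤ e := by
    have := hedge _ _ (hv 0 (by omega)) (hlt 0 (by omega))
    exact dist_nonneg.trans this
  have hball : ∀ i ≤ b, v i ∈ closedBall k (D + e) := by
    intro i hi
    rw [mem_closedBall]
    rcases hi.lt_or_eq with h1 | h1
    · have := hlt i h1
      linarith
    · rw [h1]
      have h2 := hlt (b - 1) (by omega)
      have h3 := hedge _ _ (hv (b - 1) (by omega)) h2
      rw [Nat.sub_add_cancel (by omega : 1 ≤ b), dist_comm] at h3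
      have := dist_triangle (v b) (v (b - 1)) k
      linarith
  exact ⟨b, v, fun i hi => hadj _ _ (hv i (by omega)) (hlt i hi),
    fun i hi => ⟨⟨(hW i (by omega)).1, hball i hi⟩, (hW i (by omega)).2⟩, h0, hbR⟩

/-- **The half-plane arm bound with high probability.** -/
theorem hpStmt (hHP : HP) {C : ℝ} (hC : 0 ≤ C) (hE : EnergyWhp.{u} C) : HPStmt.{u} := by
  intro q hq
  obtain ⟨J0, hJ0⟩ := exists_nat_ge (272 * C / q)
  set J : ℕ := J0 + 1 with hJd
  have hJ : 1 ≤ J := by omega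
  have hJp : (0 : ℝ) < J := by exact_mod_cast hJ
  have hCJ : 272 * C / J ≤ q := by
    rw [div_le_iff₀ hJp]
    rw [div_le_iff₀ hq] at hJ0
    have : (J0 : ℝ) ≤ J := by rw [hJd]; push_cast; linarith
    nlinarith
  have h2J : (1 : ℝ) ≤ 2 ^ J := one_le_pow₀ (by norm_num)
  refine ⟨2 * 2 ^ J, by linarith, fun k ι hι D hD η hη => ?_⟩
  set l : ℝ := D / 2 ^ J with hl
  have hl0 : 0 < l := by positivity
  have hlD : l ≤ D := div_le_self hD.le h2J
  have hl2 : 2 ^ J * l = D := by rw [hl]; field_simp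
  have hlk : D / (2 * 2 ^ J) = l / 2 := by rw [hl]; field_simp
  rw [hlk]
  set ε : ℝ := min (η / 3) (l / 8) with hε
  have hε0 : 0 < ε := lt_min (by positivity) (by positivity)
  have hε1 : ε ≤ η / 3 := min_le_left _ _
  have hε2 : ε ≤ l / 8 := min_le_right _ _
  set R0 : ℝ := ‖k‖ + 2 * D with hR0
  have hk0 := norm_nonneg k
  set ρb : ℝ := 2 * (R0 + 6 * (8 * ε)) with hρb
  filter_upwards [whp_generic.{u} (bfar ρb), H847.whp_stab.{u} R0 (s := 8 * ε) (by positivity),
    whp_goodAt hC hE k hl0 J] with m h1 h2 h3 N hN hNf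
  obtain ⟨X, hull, hXY, hstX, hadj, hbn⟩ := exists_env (by positivity) (by positivity) le_rfl h1 h2
  have hkR : ∀ u : ℂ, dist u k ≤ 2 * D → u ∈ closedBall (0 : ℂ) R0 := by
    intro u hu
    rw [mem_closedBall, dist_zero_right]
    have h4 := norm_le_norm_add_norm_sub' u k
    rw [← Complex.dist_eq] at h4
    linarith
  rw [qpr_eq_cp]
  have g1 : cp N (fun W => HPArm (nbr (pts m.2)) W k ι η (l / 2) D) ≤
      cp N (fun W => HPArm (nbr X) (W ∩ closedBall k (D + 8 * ε / 4)) k ι η (l / 2) D) :=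
    cp_mono hNf fun W _ h => hparm_restrict (by linarith)
      (fun u v huv hu => (hadj u (hkR u (by linarith)) v huv).1)
      (fun u v huv hu => (hadj u (hkR u (by linarith)) v huv).2) h
  have g2 : cp N (fun W => HPArm (nbr X) (W ∩ closedBall k (D + 8 * ε / 4)) k ι η (l / 2) D) ≤
      cp X (fun W => HPArm (nbr X) W k ι η (l / 2) D) := by
    refine cp_inter_le (G := closedBall k (D + 8 * ε / 4))
      (Q := fun W => HPArm (nbr X) W k ι η (l / 2) D) hNf hull.fin ?_
      (fun W W' hWW' h => HPArm.mono hWW' h)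
    rintro x ⟨hxN, hxG⟩
    have h4 : x ∈ pts m.2 ∩ closedBall k (D + 8 * ε / 4) := ⟨hN hxN, hxG⟩
    rw [hXY] at h4
    · exact h4.1
    · refine closedBall_subset_closedBall' ?_
      rw [dist_zero_right]
      linarith
  refine g1.trans (g2.trans (le_trans ?_ hCJ))
  have hgX : GoodAt X k l J C := by
    refine h3.congr hl0.le (s := 8 * ε) (by positivity) ?_ (hXY _ ?_)
    · rw [hl2]
      intro x hx
      exact h2 x (hkR x (by rw [mem_closedBall] at hx; linarith))
    · rw [hl2]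
      refine closedBall_subset_closedBall' ?_
      rw [dist_zero_right]
      linarith
  refine hHP hull hι hJ hgX (ε := ε) (R := D) ?_ ?_ hε0 (by linarith) (by positivity)
    (by linarith) hl2.le le_rfl
  · intro z hz x _ hzx
    have h4 : dist z x ≤ 8 * ε / 8 :=
      (hstX z (hkR z (by rw [mem_closedBall] at hz; linarith))).dist_le
        (mem_closedBall_self (by positivity)) hzx
    linarith
  · intro j
    have h4 := hbn j
    have h5 := norm_le_norm_add_norm_sub' (bfar ρb j) k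
    rw [← Complex.dist_eq] at h5
    linarith

end Vale.Agent.P148.R2.H938
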