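import Vale.Agent.P148.R2.H938.CombP
import Vale.Agent.P148.R2.H953.Tool1

/-!
# P148, rows N1/N2 (comb gates): quenched lower bounds, for colourings `V → Bool`

The statements of `CombP.lean` for fair colourings `σ : V → Bool` of a finite type `V` with an
injective map `e : V → ℂ` (the sites).
-/

open MeasureTheory Set Metric Topology Filter ProbabilityTheory Relation
open _root_.P148
open scoped ENNReal NNReal

namespace Vale.Agent.P148.R2.H938

open Vale.Agent.P148.R2.F (whp)
open Vale.Agent.P148.R2.H592 (nbr)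
open Vale.Agent.P148.R2.H678
open Vale.Agent.P148.R2.H953 (pr ex)
open Vale.Agent.P148.R2.N (ms nc)

universe u v

section Col

variable {V : Type v} [Fintype V] {e : V → ℂ}

/-- The points of the colour `c`. -/
def pc (e : V → ℂ) (c : Bool) (σ : V → Bool) : Set ℂ := e '' {v | σ v = c}

theorem pc_subset (e : V → ℂ) (c : Bool) (σ : V → Bool) : pc e c σ ⊆ range e :=
  image_subset_range _ _

theorem pc_not (he : Function.Injective e) (c : Bool) (σ : V → Bool) :
    pc e (!c) σ = range e \ pc e c σ := by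
  ext z
  constructor
  · rintro ⟨v, hv, rfl⟩
    refine ⟨⟨v, rfl⟩, ?_⟩
    rintro ⟨w, hw, hwv⟩
    have h1 : w = v := he hwv
    subst h1
    have h2 : σ w = !c := hv
    have h3 : σ w = c := hw
    rw [h3] at h2
    cases c <;> simp at h2
  · rintro ⟨⟨v, rfl⟩, hv⟩
    refine ⟨v, ?_, rfl⟩
    show σ v = !c
    by_contra h
    apply hv
    refine ⟨v, ?_, rfl⟩
    show σ v = c
    cases c <;> cases h' : σ v <;> simp_all

theorem pr_eq_cp (he : Function.Injective e) (Q : Set ℂ → Prop) (c : Bool) :
    pr (fun σ : V → Bool => Q (pc e c σ)) = cp (range e) Q := by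
  classical
  unfold cp pr ex
  have h1 : (range e).ncard = Fintype.card V := by
    rw [← image_univ, Set.ncard_image_of_injective _ he, Set.ncard_univ, Nat.card_eq_fintype_card]
  rw [h1]
  congr 1
  rw [Finset.sum_boole]
  congr 1
  rw [← Set.ncard_coe_finset]
  refine (Set.ncard_congr (fun σ _ => pc e c σ) ?_ ?_ ?_)
  · intro σ hσ
    rw [Finset.mem_coe, Finset.mem_filter] at hσ
    exact ⟨pc_subset _ _ _, hσ.2⟩
  · intro σ τ _ _ h
    funext v
    have h2 : σ v = c ↔ τ v = c := by
      constructor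
      · intro h3
        have : e v ∈ pc e c σ := ⟨v, h3, rfl⟩
        rw [h] at this
        obtain ⟨w, hw, hwv⟩ := this
        rw [← he hwv]
        exact hw
      · intro h3
        have : e v ∈ pc e c τ := ⟨v, h3, rfl⟩
        rw [← h] at this
        obtain ⟨w, hw, hwv⟩ := this
        rw [← he hwv]
        exact hw
    cases c <;> cases h3 : σ v <;> cases h4 : τ v <;> simp_all
  · rintro W ⟨hW, hQ⟩
    refine ⟨fun v => if e v ∈ W then c else !c, ?_, ?_⟩
    · rw [Finset.mem_coe, Finset.mem_filter]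
      refine ⟨Finset.mem_univ _, ?_⟩
      have : pc e c (fun v => if e v ∈ W then c else !c) = W := by
        ext z
        constructor
        · rintro ⟨v, hv, rfl⟩
          have hv' : (if e v ∈ W then c else !c) = c := hv
          by_contra h
          rw [if_neg h] at hv'
          cases c <;> simp at hv'
        · intro hz
          obtain ⟨v, rfl⟩ := hW hz
          refine ⟨v, ?_, rfl⟩
          show (if e v ∈ W then c else !c) = c
          rw [if_pos hz]
      rw [this]
      exact hQ
    · ext z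
      constructor
      · rintro ⟨v, hv, rfl⟩
        have hv' : (if e v ∈ W then c else !c) = c := hv
        by_contra h
        rw [if_neg h] at hv'
        cases c <;> simp at hv'
      · intro hz
        obtain ⟨v, rfl⟩ := hW hz
        refine ⟨v, ?_, rfl⟩
        show (if e v ∈ W then c else !c) = c
        rw [if_pos hz]

theorem pr_two_eq_cp (he : Function.Injective e) (Q : Set ℂ → Set ℂ → Prop) (c : Bool) :
    pr (fun σ : V → Bool => Q (pc e c σ) (pc e (!c) σ)) =
      cp (range e) (fun W => Q W (range e \ W)) := by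
  rw [← pr_eq_cp he (fun W => Q W (range e \ W)) c]
  congr 1
  funext σ
  rw [pc_not he]

end Col

variable {M : ℕ}

/-- **Quenched probabilities of the comb**, for colourings `V → Bool` (`b` is the black colour). -/
theorem comb_pr_whp : ∃ c > 0, ∀ M, 0 < M → ∀ᶠ m in whp.{u}, ∀ (V : Type v) [Fintype V]
    (e : V → ℂ) (b : Bool), Function.Injective e → range e ⊆ pts m.2 →
      pts m.2 ∩ ball 0 6 ⊆ range e →
      (∀ k < nc M, c ≤ pr fun σ : V → Bool => HubEv M (pts m.2) (pc e b σ) (pc e (!b) σ) k) ∧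
      (∀ k < nc M, c ≤ pr fun σ : V → Bool => CorEv M (pts m.2) (pc e b σ) (pc e (!b) σ) k) ∧
      c ^ nc M ≤ pr (fun σ : V → Bool => ∀ k < nc M,
        HubEv M (pts m.2) (pc e b σ) (pc e (!b) σ) k) ∧
      c ^ nc M ≤ pr (fun σ : V → Bool => ∀ k < nc M,
        CorEv M (pts m.2) (pc e b σ) (pc e (!b) σ) k) := by
  obtain ⟨c, hc, h⟩ := comb_all_whp.{u}
  refine ⟨c, hc, fun M hM => ?_⟩
  filter_upwards [h M hM] with m hm V _ e b he hr hbox
  obtain ⟨h1, h2, h3, h4⟩ := hm (range e) hr (finite_range e) hbox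
  refine ⟨fun k hk => ?_, fun k hk => ?_, ?_, ?_⟩
  · rw [pr_two_eq_cp he (fun B W => HubEv M (pts m.2) B W k) b]
    exact h1 k hk
  · rw [pr_two_eq_cp he (fun B W => CorEv M (pts m.2) B W k) b]
    exact h2 k hk
  · rw [pr_two_eq_cp he (fun B W => ∀ k < nc M, HubEv M (pts m.2) B W k) b]
    exact h3
  · rw [pr_two_eq_cp he (fun B W => ∀ k < nc M, CorEv M (pts m.2) B W k) b]
    exact h4

/-- The hub events are independent. -/
theorem pr_hubEv_prod {V : Type v} [Fintype V] {e : V → ℂ} (he : Function.Injective e)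
    (hM : 0 < M) (X : Set ℂ) (b : Bool) (s : Finset ℕ) (hs : ∀ k ∈ s, k < nc M) :
    pr (fun σ : V → Bool => ∀ k ∈ s, HubEv M X (pc e b σ) (pc e (!b) σ) k) =
      ∏ k ∈ s, pr (fun σ : V → Bool => HubEv M X (pc e b σ) (pc e (!b) σ) k) := by
  rw [pr_two_eq_cp he (fun B W => ∀ k ∈ s, HubEv M X B W k) b,
    cp_hubEv_prod hM (finite_range e) s hs]
  exact Finset.prod_congr rfl fun k _ => (pr_two_eq_cp he (fun B W => HubEv M X B W k) b).symm

/-- The corridor events are independent. -/
theorem pr_corEv_prod {V : Type v} [Fintype V] {e : V → ℂ} (he : Function.Injective e)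
    (hM : 0 < M) (X : Set ℂ) (b : Bool) (s : Finset ℕ) (hs : ∀ k ∈ s, k < nc M) :
    pr (fun σ : V → Bool => ∀ k ∈ s, CorEv M X (pc e b σ) (pc e (!b) σ) k) =
      ∏ k ∈ s, pr (fun σ : V → Bool => CorEv M X (pc e b σ) (pc e (!b) σ) k) := by
  rw [pr_two_eq_cp he (fun B W => ∀ k ∈ s, CorEv M X B W k) b,
    cp_corEv_prod hM (finite_range e) s hs]
  exact Finset.prod_congr rfl fun k _ => (pr_two_eq_cp he (fun B W => CorEv M X B W k) b).symm

end Vale.Agent.P148.R2.H938
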