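import Vale.Agent.P148.R2.H678.Hub
import Vale.Agent.P148.R2.H995.CrossW
import Vale.Agent.P148.R2.H995.CombRad

/-!
# P148, rows N1/N2 (comb gates): quenched lower bounds

With high probability, for all finite sets `N` of points which contain the points of the window:
the hubs stay in their boxes, the corridors are crossed, with probabilities bounded from below by
powers of an absolute constant.
-/

open MeasureTheory Set Metric Topology Filter ProbabilityTheory Relation
open _root_.P148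
open scoped ENNReal NNReal

namespace Vale.Agent.P148.R2.H938

open Vale.Agent.P148.R2.F (whp)
open Vale.Agent.P148.R2.H592 (nbr)
open Vale.Agent.P148.R2.H678
open Vale.Agent.P148.R2.H995 (nsup TCr Box Circ tcr_whp circ_whp tcr_inter)
open Vale.Agent.P148.R2.N (ms nc gateC gbox cell csq disp ms_pos gateC_succ norm_disp_le)

universe u

/-! ### deterministic part -/

theorem circ_inter {X W A : Set ℂ} {p : ℂ} {r R : ℝ} (hA : ∀ z, nsup (z - p) ≤ R → z ∈ A) :
    Circ X W p r R ↔ Circ X (W ∩ A) p r R := by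
  constructor
  · rintro ⟨K, h1, h2, h3, h4, h5, h6⟩
    exact ⟨K, fun z hz => ⟨h1 hz, hA z (h4 z hz).2⟩, h2, h3, h4, h5, h6⟩
  · intro h
    exact h.mono inter_subset_left

/-- The circuit which confines the hub with centre `z`. -/
def HCirc (M : ℕ) (X W : Set ℂ) (z : ℂ) : Prop := Circ X W z (sd M) (hb M)

theorem HCirc.mono {M : ℕ} {X W W' : Set ℂ} {z : ℂ} (h : HCirc M X W z) (hW : W ⊆ W') :
    HCirc M X W' z := Circ.mono h hW

theorem hb_pos {M : ℕ} (hM : 0 < M) : 0 < hb M := by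
  have := ms_pos hM
  unfold hb
  positivity

theorem sd_pos {M : ℕ} (hM : 0 < M) : 0 < sd M := by
  have := ms_pos hM
  unfold sd
  positivity

theorem sd_le_hb (M : ℕ) : sd M ≤ hb M / 2 := by
  unfold sd hb ms
  have : (0 : ℝ) ≤ 1 / M := by positivity
  linarith

theorem hb_nonneg (M : ℕ) : 0 ≤ hb M := by
  unfold hb ms
  positivity

/-! ### with high probability -/

/-- The circuits around the hubs. -/
theorem hcirc_whp : ∃ c > 0, ∀ M, 0 < M → ∀ z : ℂ, ∀ᶠ m in whp.{u}, ∀ N ⊆ pts m.2, N.Finite →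
    pts m.2 ∩ hbox M z ⊆ N → c ≤ cp N (fun W => HCirc M (pts m.2) W z) := by
  obtain ⟨c, hc, h⟩ := circ_whp.{u} (B := 2) (by norm_num)
  refine ⟨c, hc, fun M hM z => ?_⟩
  filter_upwards [h z (sd M) (hb M) (sd_pos hM) (by linarith [sd_le_hb M])] with m hm N hN
    hfin hbox
  exact hm N hN hfin fun w hw _ h2 => hbox ⟨hw, h2⟩

theorem norm_cio {z z' : ℂ} (h : z ≠ z') : ‖cio z z'‖ = 1 := by
  have h1 : ‖z' - z‖ ≠ 0 := norm_ne_zero_iff.2 (sub_ne_zero.2 h.symm)
  unfold cio
  rw [norm_div, RCLike.norm_conj, Complex.norm_real, norm_norm, div_self h1]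

/-- The corridors. -/
theorem ccr_whp : ∃ c > 0, ∀ M, 0 < M → ∀ z z' : ℂ, sd M < ‖z' - z‖ → ‖z' - z‖ ≤ 2 * ms M →
    ∀ᶠ m in whp.{u}, ∀ N ⊆ pts m.2, N.Finite → pts m.2 ∩ CBox M z z' ⊆ N →
      c ≤ cp N (fun W => CCr M (pts m.2) W z z') := by
  obtain ⟨c, hc, h⟩ := tcr_whp.{u} 2048
  refine ⟨c, hc, fun M hM z z' h1 h2 => ?_⟩
  have hs := sd_pos hM
  have hne : z ≠ z' := by
    rintro rfl
    rw [sub_self, norm_zero] at h1
    linarith
  have e : sd M = ms M / 256 := rfl
  exact h (cio z z') z (sd M / 2) (‖z' - z‖ - sd M / 2) (-(sd M / 8)) (sd M / 8) (sd M / 8)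
    (norm_cio hne) (by linarith) (by linarith) (by linarith) (by linarith)

theorem ccr_mono {M : ℕ} {X W W' : Set ℂ} {z z' : ℂ} (h : CCr M X W z z') (hW : W ⊆ W') :
    CCr M X W' z z' := TCr.mono h (inter_subset_left.trans hW)

theorem ccr_inter {M : ℕ} {X W A : Set ℂ} {z z' : ℂ} (hA : W ∩ CBox M z z' ⊆ A) :
    CCr M X W z z' ↔ CCr M X (W ∩ A) z z' :=
  ⟨fun h => TCr.mono h fun _ hz => ⟨hz.1, hA hz⟩, fun h => ccr_mono h inter_subset_left⟩

/-! ### lengths of the corridors -/

theorem norm_uo (M k : ℕ) : ‖uo M k‖ = 1 := by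
  unfold uo
  rw [norm_pow, Complex.norm_I, one_pow]

theorem pout_sub_pin (M k : ℕ) : pout M k - pin M k = uo M k * ((ms M / 8 : ℝ) : ℂ) := by
  unfold pout pin
  push_cast
  ring

theorem norm_pout_sub_pin {M : ℕ} (hM : 0 < M) (k : ℕ) : ‖pout M k - pin M k‖ = ms M / 8 := by
  have := ms_pos hM
  rw [pout_sub_pin, norm_mul, norm_uo, one_mul, Complex.norm_real, Real.norm_of_nonneg]
  positivity

theorem le_norm_disp {M : ℕ} (hM : 0 < M) (k : ℕ) : ms M / 2 ≤ ‖disp M k‖ := by
  have h0 := ms_pos hM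
  unfold disp
  rw [norm_mul, norm_pow, Complex.norm_I, one_pow, one_mul]
  split_ifs
  · refine le_trans ?_ (Complex.abs_im_le_norm _)
    exact le_abs_self _
  · refine le_trans ?_ (Complex.abs_im_le_norm _)
    rw [abs_of_pos h0]
    linarith

theorem norm_uo_sub (M k : ℕ) (x : ℝ) (hx : 0 ≤ x) :
    ‖(uo M (k + 1) - uo M k) * (x : ℂ)‖ ≤ 2 * x := by
  rw [norm_mul, Complex.norm_real, Real.norm_of_nonneg hx]
  refine mul_le_mul_of_nonneg_right ((norm_sub_le _ _).trans ?_) hx
  rw [norm_uo, norm_uo]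
  norm_num

theorem pin_bounds {M : ℕ} (hM : 0 < M) (k : ℕ) :
    sd M < ‖pin M (k + 1) - pin M k‖ ∧ ‖pin M (k + 1) - pin M k‖ ≤ 2 * ms M := by
  have h0 := ms_pos hM
  have e : pin M (k + 1) - pin M k =
      disp M k - (uo M (k + 1) - uo M k) * ((ms M / 16 : ℝ) : ℂ) := by
    unfold pin
    rw [gateC_succ hM]
    ring
  have h1 := norm_uo_sub M k (ms M / 16) (by positivity)
  have h2 := le_norm_disp hM k
  have h3 := norm_disp_le hM k
  have h4 := norm_sub_norm_le (disp M k) ((uo M (k + 1) - uo M k) * ((ms M / 16 : ℝ) : ℂ))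
  have h5 := norm_sub_le (disp M k) ((uo M (k + 1) - uo M k) * ((ms M / 16 : ℝ) : ℂ))
  rw [e]
  unfold sd
  constructor <;> linarith

theorem pout_bounds {M : ℕ} (hM : 0 < M) (k : ℕ) :
    sd M < ‖pout M (k + 1) - pout M k‖ ∧ ‖pout M (k + 1) - pout M k‖ ≤ 2 * ms M := by
  have h0 := ms_pos hM
  have e : pout M (k + 1) - pout M k =
      disp M k + (uo M (k + 1) - uo M k) * ((ms M / 16 : ℝ) : ℂ) := by
    unfold pout
    rw [gateC_succ hM]
    ring
  have h1 := norm_uo_sub M k (ms M / 16) (by positivity)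
  have h2 := le_norm_disp hM k
  have h3 := norm_disp_le hM k
  have h4 := norm_sub_norm_le (disp M k) (-((uo M (k + 1) - uo M k) * ((ms M / 16 : ℝ) : ℂ)))
  have h5 := norm_add_le (disp M k) ((uo M (k + 1) - uo M k) * ((ms M / 16 : ℝ) : ℂ))
  rw [norm_neg, sub_neg_eq_add] at h4
  rw [e]
  unfold sd
  constructor <;> linarith

theorem tooth_bounds {M : ℕ} (hM : 0 < M) (k : ℕ) :
    sd M < ‖pout M k - pin M k‖ ∧ ‖pout M k - pin M k‖ ≤ 2 * ms M := by
  have h0 := ms_pos hM
  rw [norm_pout_sub_pin hM]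
  unfold sd
  constructor <;> linarith

theorem rad_bounds {M : ℕ} (hM : 0 < M) (k : ℕ) :
    sd M < ‖H995.prad M k - pout M k‖ ∧ ‖H995.prad M k - pout M k‖ ≤ 2 * ms M := by
  have h0 := ms_pos hM
  rw [H995.norm_rad hM]
  unfold sd
  constructor <;> linarith

/-! ### two colours -/

/-- Increasing events `Q i` of the black points in the places `A i`, and increasing events `Q' j` of
the white points in the places `B j`, off the `A i`. -/
theorem cp_two {α : Type*} {N : Set α} (hN : N.Finite) {κ κ' : Type*} (s : Finset κ)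
    (s' : Finset κ') {A : κ → Set α} {B : κ' → Set α} {Q : κ → Set α → Prop}
    {Q' : κ' → Set α → Prop} {c : κ → ℝ} {c' : κ' → ℝ}
    (hQ : ∀ i ∈ s, ∀ W W', W ⊆ W' → Q i W → Q i W')
    (hQ' : ∀ i ∈ s', ∀ W W', W ⊆ W' → Q' i W → Q' i W')
    (hA : ∀ i ∈ s, ∀ W, Q i W → Q i (W ∩ A i)) (hB : ∀ i ∈ s', ∀ W, Q' i W → Q' i (W ∩ B i))
    (hc : ∀ i ∈ s, 0 ≤ c i) (hc' : ∀ i ∈ s', 0 ≤ c' i) (h : ∀ i ∈ s, c i ≤ cp N (Q i))
    (h' : ∀ i ∈ s', c' i ≤ cp N (Q' i)) (hd : ∀ i ∈ s, ∀ j ∈ s', Disjoint (A i) (B j)) :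
    (∏ i ∈ s, c i) * ∏ i ∈ s', c' i ≤
      cp N (fun W => (∀ i ∈ s, Q i W) ∧ ∀ i ∈ s', Q' i (N \ W)) := by
  classical
  set U : Set α := ⋃ i ∈ s, A i with hU
  set V : Set α := ⋃ i ∈ s', B i with hV
  have hUV : Disjoint U V := by
    rw [hU, hV]
    simp only [disjoint_iUnion_left, disjoint_iUnion_right]
    intro j hj i hi
    exact hd i hi j hj
  rw [cp_indep hN hUV (Q := fun W => ∀ i ∈ s, Q i W) (Q' := fun W => ∀ i ∈ s', Q' i (N \ W))]
  · refine mul_le_mul ?_ ?_ (Finset.prod_nonneg fun k hk => hc' k hk) (cp_nonneg _ _)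
    · exact (Finset.prod_le_prod hc h).trans
        (cp_harris_prod_inc hN s fun i hi W W' hW => hQ i hi W W' hW)
    · refine (Finset.prod_le_prod hc' h').trans ?_
      refine (cp_harris_prod_inc hN s' fun i hi W W' hW => hQ' i hi W W' hW).trans ?_
      rw [← cp_compl]
  · intro W
    constructor
    · intro H i hi
      refine hQ i hi _ _ ?_ (hA i hi W (H i hi))
      exact fun z hz => ⟨hz.1, mem_biUnion hi hz.2⟩
    · intro H i hi
      exact hQ i hi _ _ inter_subset_left (H i hi)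
  · intro W
    constructor
    · intro H i hi
      exact hQ' i hi _ _ (fun z hz => ⟨hz.1, fun h => hz.2 h.1⟩) (H i hi)
    · intro H i hi
      refine hQ' i hi _ _ ?_ (hB i hi _ (H i hi))
      rintro z ⟨⟨hzN, hz⟩, hzB⟩
      exact ⟨hzN, fun h => hz ⟨h, mem_biUnion hi hzB⟩⟩

/-! ### the events and their places -/

variable {M k : ℕ} {X Bl Wh Bl' Wh' : Set ℂ}

/-- The boxes of the two hubs of the gate `k`. -/
def HBx (M k : ℕ) : Set ℂ := hbox M (pin M k) ∪ hbox M (pout M k)

/-- The box of the tooth of the gate `k`. -/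
def VB (M k : ℕ) : Set ℂ := CBox M (pin M k) (pout M k)

/-- The box of the lower (black) rail. -/
def LB (M k : ℕ) : Set ℂ := CBox M (pin M k) (pin M (k + 1))

/-- The box of the upper (white) rail. -/
def UB (M k : ℕ) : Set ℂ := CBox M (pout M k) (pout M (k + 1))

/-- The box of the radial (white) corridor. -/
def RB (M k : ℕ) : Set ℂ := CBox M (pout M k) (H995.prad M k)

/-- The boxes of the corridors. -/
def CBx (M k : ℕ) : Set ℂ := (VB M k ∪ RB M k) ∪ (LB M k ∪ UB M k)

/-- The hub event (first colouring). -/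
def HubEv (M : ℕ) (X Bl Wh : Set ℂ) (k : ℕ) : Prop := InGood M X Wh k ∧ OutGood M X Bl k

/-- The radial crossing: a white crossing from the outer hub to the outside. -/
def Rad (M : ℕ) (X Wh : Set ℂ) (k : ℕ) : Prop := CCr M X Wh (pout M k) (H995.prad M k)

/-- The corridor event (second colouring): tooth, radial crossing, and the two rails. -/
def CorEv (M : ℕ) (X Bl Wh : Set ℂ) (k : ℕ) : Prop :=
  (Tooth M X Wh k ∧ Rad M X Wh k) ∧ Rails M X Bl Wh k

theorem inGood_congr (h : Wh' ∩ hbox M (pin M k) = Wh ∩ hbox M (pin M k)) :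
    InGood M X Wh k ↔ InGood M X Wh' k := by
  unfold InGood inHub
  constructor
  · intro H
    rw [hub_congr_of_sub H h]
    exact H
  · intro H
    rw [hub_congr_of_sub H h.symm]
    exact H

theorem outGood_congr (h : Bl' ∩ hbox M (pout M k) = Bl ∩ hbox M (pout M k)) :
    OutGood M X Bl k ↔ OutGood M X Bl' k := by
  unfold OutGood outHub
  constructor
  · intro H
    rw [hub_congr_of_sub H h]
    exact H
  · intro H
    rw [hub_congr_of_sub H h.symm]
    exact H

theorem ccr_congr {W W' : Set ℂ} {z z' : ℂ} (h : W' ∩ CBox M z z' = W ∩ CBox M z z') :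
    CCr M X W z z' ↔ CCr M X W' z z' :=
  ⟨fun H => TCr.mono H (h ▸ inter_subset_left : W ∩ CBox M z z' ⊆ W'),
    fun H => TCr.mono H (h.symm ▸ inter_subset_left : W' ∩ CBox M z z' ⊆ W)⟩

theorem inter_eq_of_sub {α : Type*} {A B W W' : Set α} (h : W' ∩ A = W ∩ A) (hB : B ⊆ A) :
    W' ∩ B = W ∩ B := by
  rw [← inter_eq_self_of_subset_right hB, ← inter_assoc, ← inter_assoc, h]

theorem hubEv_congr (hb : Bl' ∩ HBx M k = Bl ∩ HBx M k) (hw : Wh' ∩ HBx M k = Wh ∩ HBx M k) :
    HubEv M X Bl Wh k ↔ HubEv M X Bl' Wh' k :=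
  and_congr (inGood_congr (inter_eq_of_sub hw subset_union_left))
    (outGood_congr (inter_eq_of_sub hb subset_union_right))

theorem corEv_congr (hb : Bl' ∩ CBx M k = Bl ∩ CBx M k) (hw : Wh' ∩ CBx M k = Wh ∩ CBx M k) :
    CorEv M X Bl Wh k ↔ CorEv M X Bl' Wh' k :=
  and_congr (and_congr
    (ccr_congr (inter_eq_of_sub hw (subset_union_left.trans subset_union_left)))
    (ccr_congr (inter_eq_of_sub hw (subset_union_right.trans subset_union_left))))
    (and_congr (ccr_congr (inter_eq_of_sub hb (subset_union_left.trans subset_union_right)))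
      (ccr_congr (inter_eq_of_sub hw (subset_union_right.trans subset_union_right))))

theorem sdiff_inter_eq {α : Type*} {N W A : Set α} : (N \ (W ∩ A)) ∩ A = (N \ W) ∩ A := by
  ext z
  simp only [mem_inter_iff, mem_diff, not_and]
  tauto

theorem hubEv_inter {N W : Set ℂ} :
    HubEv M X W (N \ W) k ↔ HubEv M X (W ∩ HBx M k) (N \ (W ∩ HBx M k)) k :=
  hubEv_congr (by rw [inter_assoc, inter_self]) sdiff_inter_eq

theorem corEv_inter {N W : Set ℂ} :
    CorEv M X W (N \ W) k ↔ CorEv M X (W ∩ CBx M k) (N \ (W ∩ CBx M k)) k :=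
  corEv_congr (by rw [inter_assoc, inter_self]) sdiff_inter_eq

/-- The disjointness of the boxes. -/
structure Lay (M : ℕ) : Prop where
  hub : ∀ k < nc M, ∀ l < nc M, Disjoint (hbox M (pin M k)) (hbox M (pout M l))
  hubk : ∀ k < nc M, ∀ l < nc M, k ≠ l → Disjoint (HBx M k) (HBx M l)
  lv : ∀ k < nc M, ∀ l < nc M, Disjoint (LB M k) (VB M l)
  lu : ∀ k < nc M, ∀ l < nc M, Disjoint (LB M k) (UB M l)
  lr : ∀ k < nc M, ∀ l < nc M, Disjoint (LB M k) (RB M l)
  cork : ∀ k < nc M, ∀ l < nc M, k ≠ l → Disjoint (CBx M k) (CBx M l)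

theorem lay (hM : 0 < M) : Lay M where
  hub := by
    intro k hk l hl
    rcases eq_or_ne k l with rfl | h
    · exact H995.hbox_disj hM k
    · exact (H995.hboxes_disj hM hk hl h).mono subset_union_left subset_union_right
  hubk := fun k hk l hl h => H995.hboxes_disj hM hk hl h
  lv := fun k hk l hl => ((H995.tooth_rail_disj hM hk hl).mono_right subset_union_left).symm
  lu := by
    intro k hk l hl
    rcases eq_or_ne k l with rfl | h
    · exact H995.rails_disj hM k
    · exact (H995.rail_rail_disj hM hk hl h).mono subset_union_left subset_union_right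
  lr := fun k hk l hl => ((H995.rad_rail_disj hM hl hk).mono_right subset_union_left).symm
  cork := by
    intro k hk l hl h
    refine Set.disjoint_union_left.2 ⟨Set.disjoint_union_right.2
      ⟨Set.disjoint_union_left.2 ⟨Set.disjoint_union_right.2 ⟨?_, ?_⟩,
        Set.disjoint_union_right.2 ⟨?_, ?_⟩⟩, Set.disjoint_union_left.2 ⟨?_, ?_⟩⟩,
      Set.disjoint_union_right.2 ⟨Set.disjoint_union_right.2 ⟨?_, ?_⟩, ?_⟩⟩
    · exact H995.tooth_tooth_disj hM hk hl h
    · exact (H995.rad_tooth_disj hM hl hk).symm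
    · exact H995.rad_tooth_disj hM hk hl
    · exact H995.rad_rad_disj hM hk hl h
    · exact H995.tooth_rail_disj hM hl hk
    · exact H995.rad_rail_disj hM hk hl
    · exact (H995.tooth_rail_disj hM hk hl).symm
    · exact (H995.rad_rail_disj hM hl hk).symm
    · exact H995.rail_rail_disj hM hk hl h

/-- **The hub events are independent.** -/
theorem cp_hubEv_prod (hM : 0 < M) {N : Set ℂ} (hN : N.Finite) (s : Finset ℕ)
    (hs : ∀ k ∈ s, k < nc M) :
    cp N (fun W => ∀ k ∈ s, HubEv M X W (N \ W) k) =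
      ∏ k ∈ s, cp N (fun W => HubEv M X W (N \ W) k) :=
  cp_indep_prod hN s (HBx M) (fun k hk l hl h => (lay hM).hubk k (hs k hk) l (hs l hl) h)
    fun _ _ _ => hubEv_inter

/-- **The corridor events are independent.** -/
theorem cp_corEv_prod (hM : 0 < M) {N : Set ℂ} (hN : N.Finite) (s : Finset ℕ)
    (hs : ∀ k ∈ s, k < nc M) :
    cp N (fun W => ∀ k ∈ s, CorEv M X W (N \ W) k) =
      ∏ k ∈ s, cp N (fun W => CorEv M X W (N \ W) k) :=
  cp_indep_prod hN s (CBx M) (fun k hk l hl h => (lay hM).cork k (hs k hk) l (hs l hl) h)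
    fun _ _ _ => corEv_inter

theorem cp_hubEv_ge {N : Set ℂ} (hN : N.Finite) {c : ℝ} (hc : 0 ≤ c)
    (hd : Disjoint (hbox M (pin M k)) (hbox M (pout M k)))
    (h1 : c ≤ cp N (fun W => HCirc M X W (pin M k)))
    (h2 : c ≤ cp N (fun W => HCirc M X W (pout M k))) :
    c * c ≤ cp N (fun W => HubEv M X W (N \ W) k) := by
  have h := cp_two hN ({0} : Finset ℕ) ({0} : Finset ℕ) (A := fun _ => hbox M (pin M k))
    (B := fun _ => hbox M (pout M k)) (Q := fun _ W => HCirc M X W (pin M k))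
    (Q' := fun _ W => HCirc M X W (pout M k)) (c := fun _ => c) (c' := fun _ => c)
    (fun _ _ W W' hW H => H.mono hW) (fun _ _ W W' hW H => H.mono hW)
    (fun _ _ W H => (circ_inter fun z hz => hz).1 H)
    (fun _ _ W H => (circ_inter fun z hz => hz).1 H) (fun _ _ => hc) (fun _ _ => hc)
    (fun _ _ => h1) (fun _ _ => h2) (fun _ _ _ _ => hd)
  simp only [Finset.prod_singleton, Finset.mem_singleton, forall_eq] at h
  refine h.trans (cp_mono hN fun W _ hW => ⟨?_, ?_⟩)
  · exact inGood_of_circ hW.1 disjoint_sdiff_right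
  · exact outGood_of_circ hW.2 disjoint_sdiff_right

theorem cp_corEv_ge {N : Set ℂ} (hN : N.Finite) {c : ℝ} (hc : 0 ≤ c)
    (hd1 : Disjoint (LB M k) (VB M k)) (hd2 : Disjoint (LB M k) (UB M k))
    (hd3 : Disjoint (LB M k) (RB M k))
    (h1 : c ≤ cp N (fun W => CCr M X W (pin M k) (pin M (k + 1))))
    (h2 : c ≤ cp N (fun W => CCr M X W (pin M k) (pout M k)))
    (h3 : c ≤ cp N (fun W => CCr M X W (pout M k) (pout M (k + 1))))
    (h4 : c ≤ cp N (fun W => CCr M X W (pout M k) (H995.prad M k))) :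
    c ^ 4 ≤ cp N (fun W => CorEv M X W (N \ W) k) := by
  have h := cp_two hN ({0} : Finset ℕ) (Finset.univ : Finset (Fin 3)) (A := fun _ => LB M k)
    (B := fun b => (![VB M k, UB M k, RB M k] : Fin 3 → Set ℂ) b)
    (Q := fun _ W => CCr M X W (pin M k) (pin M (k + 1)))
    (Q' := fun b W => CCr M X W ((![pin M k, pout M k, pout M k] : Fin 3 → ℂ) b)
      ((![pout M k, pout M (k + 1), H995.prad M k] : Fin 3 → ℂ) b))
    (c := fun _ => c) (c' := fun _ => c)
    (fun _ _ W W' hW H => ccr_mono H hW) (fun b _ W W' hW H => ccr_mono H hW)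
    (fun _ _ W H => (ccr_inter inter_subset_right).1 H)
    (fun b _ W H => by
      fin_cases b
      · exact (ccr_inter inter_subset_right).1 H
      · exact (ccr_inter inter_subset_right).1 H
      · exact (ccr_inter inter_subset_right).1 H)
    (fun _ _ => hc) (fun _ _ => hc) (fun _ _ => h1)
    (fun b _ => by
      fin_cases b
      · exact h2
      · exact h3
      · exact h4)
    (fun _ _ b _ => by
      fin_cases b
      · exact hd1
      · exact hd2
      · exact hd3)
  simp only [Finset.mem_singleton, forall_eq, Finset.prod_const, Finset.card_singleton, pow_one,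
    Finset.card_univ, Fintype.card_fin] at h
  rw [← pow_succ'] at h
  refine h.trans (cp_mono hN fun W _ hW => ?_)
  have e1 := hW.2 0 (Finset.mem_univ _)
  have e2 := hW.2 1 (Finset.mem_univ _)
  have e3 := hW.2 2 (Finset.mem_univ _)
  exact ⟨⟨e1, e3⟩, hW.1, e2⟩

/-- **Quenched probabilities of the comb.** There is an absolute constant `c > 0` such that with
high probability, for all finite sets `N` of points which contain the points of the boxes, every
hub event and every corridor event has probability at least `c`. -/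
theorem comb_whp : ∃ c > 0, ∀ M, 0 < M → ∀ᶠ m in whp.{u},
    ∀ N ⊆ pts m.2, N.Finite →
      (∀ k < nc M, pts m.2 ∩ HBx M k ⊆ N → c ≤ cp N (fun W => HubEv M (pts m.2) W (N \ W) k)) ∧
      ∀ k < nc M, pts m.2 ∩ CBx M k ⊆ N → c ≤ cp N (fun W => CorEv M (pts m.2) W (N \ W) k) := by
  obtain ⟨c1, hc1, h1⟩ := hcirc_whp.{u}
  obtain ⟨c2, hc2, h2⟩ := ccr_whp.{u}
  refine ⟨min (c1 * c1) (c2 ^ 4), by positivity, fun M hM => ?_⟩
  have hL := lay hM
  have a1 : ∀ᶠ m in whp.{u}, ∀ k ∈ Finset.range (nc M), ∀ N ⊆ pts m.2, N.Finite →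
      (pts m.2 ∩ hbox M (pin M k) ⊆ N → c1 ≤ cp N (fun W => HCirc M (pts m.2) W (pin M k))) ∧
      (pts m.2 ∩ hbox M (pout M k) ⊆ N →
        c1 ≤ cp N (fun W => HCirc M (pts m.2) W (pout M k))) := by
    rw [Filter.eventually_all_finset]
    intro k _
    filter_upwards [h1 M hM (pin M k), h1 M hM (pout M k)] with m b1 b2 N hN hfin
    exact ⟨b1 N hN hfin, b2 N hN hfin⟩
  have a2 : ∀ᶠ m in whp.{u}, ∀ k ∈ Finset.range (nc M), ∀ N ⊆ pts m.2, N.Finite →
      (pts m.2 ∩ LB M k ⊆ N →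
        c2 ≤ cp N (fun W => CCr M (pts m.2) W (pin M k) (pin M (k + 1)))) ∧
      (pts m.2 ∩ VB M k ⊆ N → c2 ≤ cp N (fun W => CCr M (pts m.2) W (pin M k) (pout M k))) ∧
      (pts m.2 ∩ UB M k ⊆ N →
        c2 ≤ cp N (fun W => CCr M (pts m.2) W (pout M k) (pout M (k + 1)))) ∧
      (pts m.2 ∩ RB M k ⊆ N →
        c2 ≤ cp N (fun W => CCr M (pts m.2) W (pout M k) (H995.prad M k))) := by
    rw [Filter.eventually_all_finset]
    intro k _
    filter_upwards [h2 M hM _ _ (pin_bounds hM k).1 (pin_bounds hM k).2,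
      h2 M hM _ _ (tooth_bounds hM k).1 (tooth_bounds hM k).2,
      h2 M hM _ _ (pout_bounds hM k).1 (pout_bounds hM k).2,
      h2 M hM _ _ (rad_bounds hM k).1 (rad_bounds hM k).2] with m b1 b2 b3 b4 N hN hfin
    exact ⟨b1 N hN hfin, b2 N hN hfin, b3 N hN hfin, b4 N hN hfin⟩
  filter_upwards [a1, a2] with m b1 b2 N hN hfin
  constructor
  · intro k hk hbox
    obtain ⟨d1, d2⟩ := b1 k (Finset.mem_range.2 hk) N hN hfin
    refine (min_le_left _ _).trans (cp_hubEv_ge hfin hc1.le (hL.hub k hk k hk)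
      (d1 ((inter_subset_inter_right _ subset_union_left).trans hbox))
      (d2 ((inter_subset_inter_right _ subset_union_right).trans hbox)))
  · intro k hk hbox
    obtain ⟨d1, d2, d3, d4⟩ := b2 k (Finset.mem_range.2 hk) N hN hfin
    refine (min_le_right _ _).trans (cp_corEv_ge hfin hc2.le (hL.lv k hk k hk) (hL.lu k hk k hk)
      (hL.lr k hk k hk)
      (d1 ((inter_subset_inter_right _ (subset_union_left.trans subset_union_right)).trans hbox))
      (d2 ((inter_subset_inter_right _ (subset_union_left.trans subset_union_left)).trans hbox))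
      (d3 ((inter_subset_inter_right _ (subset_union_right.trans subset_union_right)).trans hbox))
      (d4 ((inter_subset_inter_right _ (subset_union_right.trans subset_union_left)).trans hbox)))

theorem hbx_sub_ball (hM : 0 < M) (k : ℕ) : HBx M k ⊆ ball 0 6 :=
  (union_subset (H995.hbox_pin_sub hM k) (H995.hbox_pout_sub hM k)).trans
    ((H995.gbox_sub_ball hM k).trans (ball_subset_ball (by norm_num)))

theorem cbx_sub_ball (hM : 0 < M) (k : ℕ) : CBx M k ⊆ ball 0 6 :=
  union_subset (union_subset ((H995.tooth_sub hM k).trans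
    ((H995.gbox_sub_ball hM k).trans (ball_subset_ball (by norm_num)))) (H995.rad_sub_ball hM k))
    ((union_subset (H995.rail_in_sub hM k) (H995.rail_out_sub hM k)).trans
      ((H995.cell_sub_ball hM k).trans (ball_subset_ball (by norm_num))))

/-- All the hub events, and all the corridor events, at once. -/
theorem comb_all_whp : ∃ c > 0, ∀ M, 0 < M → ∀ᶠ m in whp.{u}, ∀ N ⊆ pts m.2, N.Finite →
    pts m.2 ∩ ball 0 6 ⊆ N →
      (∀ k < nc M, c ≤ cp N (fun W => HubEv M (pts m.2) W (N \ W) k)) ∧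
      (∀ k < nc M, c ≤ cp N (fun W => CorEv M (pts m.2) W (N \ W) k)) ∧
      c ^ nc M ≤ cp N (fun W => ∀ k < nc M, HubEv M (pts m.2) W (N \ W) k) ∧
      c ^ nc M ≤ cp N (fun W => ∀ k < nc M, CorEv M (pts m.2) W (N \ W) k) := by
  obtain ⟨c, hc, h⟩ := comb_whp.{u}
  refine ⟨c, hc, fun M hM => ?_⟩
  filter_upwards [h M hM] with m hm N hN hfin hbox
  obtain ⟨h1, h2⟩ := hm N hN hfin
  have h1' : ∀ k < nc M, c ≤ cp N (fun W => HubEv M (pts m.2) W (N \ W) k) := fun k hk =>
    h1 k hk ((inter_subset_inter_right _ (hbx_sub_ball hM k)).trans hbox)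
  have h2' : ∀ k < nc M, c ≤ cp N (fun W => CorEv M (pts m.2) W (N \ W) k) := fun k hk =>
    h2 k hk ((inter_subset_inter_right _ (cbx_sub_ball hM k)).trans hbox)
  refine ⟨h1', h2', ?_, ?_⟩
  · have e := cp_hubEv_prod (X := pts m.2) hM hfin (Finset.range (nc M))
      fun k hk => Finset.mem_range.1 hk
    simp only [Finset.mem_range] at e
    rw [e]
    calc c ^ nc M = ∏ _k ∈ Finset.range (nc M), c := by rw [Finset.prod_const, Finset.card_range]
      _ ≤ _ := Finset.prod_le_prod (fun _ _ => hc.le) fun k hk => h1' k (Finset.mem_range.1 hk)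
  · have e := cp_corEv_prod (X := pts m.2) hM hfin (Finset.range (nc M))
      fun k hk => Finset.mem_range.1 hk
    simp only [Finset.mem_range] at e
    rw [e]
    calc c ^ nc M = ∏ _k ∈ Finset.range (nc M), c := by rw [Finset.prod_const, Finset.card_range]
      _ ≤ _ := Finset.prod_le_prod (fun _ _ => hc.le) fun k hk => h2' k (Finset.mem_range.1 hk)

end Vale.Agent.P148.R2.H938
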