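import Mathlib.Combinatorics.SetFamily.HarrisKleitman
import Mathlib.Data.Set.Card
import Mathlib.Data.Real.Basic
import Mathlib.Tactic

/-!
# Uniform subsets of a finite set: Harris inequality, independence, product bounds

`cp N Q` is the probability of `Q W` for a uniform random subset `W` of the finite set `N`
(the black points).  For `α = ℂ` it is (definitionally) `H847.qpr`.
-/

open Set

namespace Vale.Agent.P148.R2.H938

variable {α ι : Type*}

/-- The probability of `Q` for a uniform random subset of the finite set `N`. -/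
noncomputable def cp (N : Set α) (Q : Set α → Prop) : ℝ :=
  ({W | W ⊆ N ∧ Q W}.ncard : ℝ) / 2 ^ N.ncard

theorem cp_nonneg (N : Set α) (Q : Set α → Prop) : 0 ≤ cp N Q := by
  unfold cp; positivity

theorem finite_fam {N : Set α} (hN : N.Finite) (Q : Set α → Prop) : {W | W ⊆ N ∧ Q W}.Finite :=
  hN.finite_subsets.subset fun _ h => h.1

theorem cp_mono {N : Set α} (hN : N.Finite) {Q Q' : Set α → Prop}
    (h : ∀ W ⊆ N, Q W → Q' W) : cp N Q ≤ cp N Q' := by
  unfold cp
  have hsub : {W | W ⊆ N ∧ Q W} ⊆ {W | W ⊆ N ∧ Q' W} := fun W hW => ⟨hW.1, h W hW.1 hW.2⟩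
  refine div_le_div_of_nonneg_right ?_ (by positivity)
  exact_mod_cast Set.ncard_le_ncard hsub (finite_fam hN Q')

theorem cp_congr {N : Set α} {Q Q' : Set α → Prop} (h : ∀ W ⊆ N, Q W ↔ Q' W) :
    cp N Q = cp N Q' := by
  unfold cp
  congr 2
  have : {W | W ⊆ N ∧ Q W} = {W | W ⊆ N ∧ Q' W} := by
    ext W
    constructor
    · rintro ⟨h1, h2⟩; exact ⟨h1, (h W h1).1 h2⟩
    · rintro ⟨h1, h2⟩; exact ⟨h1, (h W h1).2 h2⟩
  rw [this]

theorem cp_true {N : Set α} (hN : N.Finite) : cp N (fun _ => True) = 1 := by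
  unfold cp
  have : {W | W ⊆ N ∧ True} = 𝒫 N := by
    ext W; simp
  rw [this, Set.ncard_powerset N hN]
  push_cast
  exact div_self (by positivity)

theorem cp_false {N : Set α} : cp N (fun _ => False) = 0 := by
  unfold cp
  have : {W | W ⊆ N ∧ False} = (∅ : Set (Set α)) := by
    ext W; simp
  rw [this, Set.ncard_empty]
  simp

theorem cp_le_one {N : Set α} (hN : N.Finite) (Q : Set α → Prop) : cp N Q ≤ 1 :=
  (cp_mono hN fun _ _ _ => trivial).trans_eq (cp_true hN)

theorem cp_not {N : Set α} (hN : N.Finite) (Q : Set α → Prop) :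
    cp N (fun W => ¬ Q W) = 1 - cp N Q := by
  rw [eq_sub_iff_add_eq, ← cp_true hN]
  unfold cp
  rw [← add_div]
  congr 1
  have h1 : {W | W ⊆ N ∧ True} = {W | W ⊆ N ∧ ¬ Q W} ∪ {W | W ⊆ N ∧ Q W} := by
    ext W
    simp only [mem_ofPred_eq, mem_union]
    tauto
  rw [h1, Set.ncard_union_eq _ (finite_fam hN _) (finite_fam hN _)]
  · push_cast; rfl
  · rw [Set.disjoint_left]
    rintro W ⟨_, h1⟩ ⟨_, h2⟩
    exact h1 h2

theorem cp_or_le (N : Set α) (Q Q' : Set α → Prop) :
    cp N (fun W => Q W ∨ Q' W) ≤ cp N Q + cp N Q' := by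
  unfold cp
  rw [← add_div]
  gcongr
  have h1 : {W | W ⊆ N ∧ (Q W ∨ Q' W)} = {W | W ⊆ N ∧ Q W} ∪ {W | W ⊆ N ∧ Q' W} := by
    ext W
    simp only [mem_ofPred_eq, mem_union]
    tauto
  rw [h1]
  exact_mod_cast Set.ncard_union_le _ _

theorem cp_exists_le {N : Set α} (hN : N.Finite) (s : Finset ι) (Q : ι → Set α → Prop) :
    cp N (fun W => ∃ i ∈ s, Q i W) ≤ ∑ i ∈ s, cp N (Q i) := by
  classical
  induction s using Finset.induction_on with
  | empty =>
    simp only [Finset.notMem_empty, false_and, exists_false, Finset.sum_empty]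
    rw [cp_false]
  | insert a s ha ih =>
    rw [Finset.sum_insert ha]
    calc cp N (fun W => ∃ i ∈ insert a s, Q i W)
        ≤ cp N (fun W => Q a W ∨ ∃ i ∈ s, Q i W) := by
          apply cp_mono hN
          rintro W _ ⟨i, hi, h⟩
          rcases Finset.mem_insert.1 hi with rfl | hi
          · exact Or.inl h
          · exact Or.inr ⟨i, hi, h⟩
      _ ≤ _ := (cp_or_le _ _ _).trans (by linarith)

/-- Recolouring. -/
theorem cp_compl {N : Set α} (Q : Set α → Prop) : cp N (fun W => Q (N \ W)) = cp N Q := by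
  unfold cp
  congr 2
  refine Set.ncard_congr (fun W _ => N \ W) ?_ ?_ ?_
  · intro W hW
    exact ⟨sdiff_subset, hW.2⟩
  · intro W W' hW hW' h
    have h1 : N \ (N \ W) = N \ (N \ W') := by rw [h]
    rwa [sdiff_sdiff_cancel_left hW.1, sdiff_sdiff_cancel_left hW'.1] at h1
  · intro W hW
    refine ⟨N \ W, ⟨sdiff_subset, ?_⟩, ?_⟩
    · show Q (N \ (N \ W))
      rw [sdiff_sdiff_cancel_left hW.1]
      exact hW.2
    · exact sdiff_sdiff_cancel_left hW.1

/-! ### Harris -/

/-- The count with finsets. -/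
theorem cp_finset [DecidableEq α] (s : Finset α) (Q : Set α → Prop)
    [DecidablePred fun t : Finset α => Q (t : Set α)] :
    cp (s : Set α) Q =
      ((s.powerset.filter fun t : Finset α => Q (t : Set α)).card : ℝ) / 2 ^ s.card := by
  unfold cp
  rw [Set.ncard_coe_finset]
  congr 2
  rw [← Set.ncard_coe_finset]
  symm
  refine Set.ncard_congr (fun t _ => (t : Set α)) ?_ ?_ ?_
  · intro t ht
    rw [Finset.mem_coe, Finset.mem_filter, Finset.mem_powerset] at ht
    exact ⟨by exact_mod_cast ht.1, ht.2⟩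
  · intro t t' _ _ h
    exact_mod_cast h
  · intro W hW
    have hf : W.Finite := s.finite_toSet.subset hW.1
    refine ⟨hf.toFinset, ?_, hf.coe_toFinset⟩
    rw [Finset.mem_coe, Finset.mem_filter, Finset.mem_powerset, hf.coe_toFinset]
    refine ⟨?_, hW.2⟩
    intro x hx
    exact hW.1 (hf.mem_toFinset.1 hx)

/-- **Harris** for two decreasing events. -/
theorem cp_harris {N : Set α} (hN : N.Finite) {Q Q' : Set α → Prop}
    (hQ : ∀ W W', W ⊆ W' → Q W' → Q W) (hQ' : ∀ W W', W ⊆ W' → Q' W' → Q' W) :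
    cp N Q * cp N Q' ≤ cp N (fun W => Q W ∧ Q' W) := by
  classical
  obtain ⟨s, rfl⟩ := hN.exists_finset_coe
  rw [cp_finset, cp_finset, cp_finset]
  set A := s.powerset.filter fun t : Finset α => Q (t : Set α) with hA
  set B := s.powerset.filter fun t : Finset α => Q' (t : Set α) with hB
  have hAl : IsLowerSet (A : Set (Finset α)) := by
    intro t t' htt' ht
    rw [Finset.mem_coe, hA, Finset.mem_filter, Finset.mem_powerset] at ht ⊢
    exact ⟨subset_trans htt' ht.1, hQ _ _ (by exact_mod_cast htt') ht.2⟩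
  have hBl : IsLowerSet (B : Set (Finset α)) := by
    intro t t' htt' ht
    rw [Finset.mem_coe, hB, Finset.mem_filter, Finset.mem_powerset] at ht ⊢
    exact ⟨subset_trans htt' ht.1, hQ' _ _ (by exact_mod_cast htt') ht.2⟩
  have h1 := hAl.le_card_inter_finset' hBl (s := s)
    (fun t ht => by rw [hA, Finset.mem_filter, Finset.mem_powerset] at ht; exact ht.1)
    (fun t ht => by rw [hB, Finset.mem_filter, Finset.mem_powerset] at ht; exact ht.1)
  have h2 : s.powerset.filter (fun t : Finset α => Q (t : Set α) ∧ Q' (t : Set α)) = A ∩ B := by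
    ext t
    simp only [hA, hB, Finset.mem_filter, Finset.mem_inter]
    tauto
  rw [h2, div_mul_div_comm, div_le_div_iff₀ (by positivity) (by positivity)]
  have h3 : ((A.card : ℝ) * B.card) ≤ 2 ^ s.card * (A ∩ B).card := by exact_mod_cast h1
  have h4 : (0 : ℝ) < 2 ^ s.card := by positivity
  nlinarith

/-- **Harris** for a finite family of decreasing events. -/
theorem cp_harris_prod {N : Set α} (hN : N.Finite) (s : Finset ι) {Q : ι → Set α → Prop}
    (hQ : ∀ i ∈ s, ∀ W W', W ⊆ W' → Q i W' → Q i W) :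
    ∏ i ∈ s, cp N (Q i) ≤ cp N (fun W => ∀ i ∈ s, Q i W) := by
  classical
  induction s using Finset.induction_on with
  | empty =>
    simp only [Finset.notMem_empty, IsEmpty.forall_iff, implies_true, Finset.prod_empty]
    rw [cp_true hN]
  | insert a s ha ih =>
    rw [Finset.prod_insert ha]
    have h1 := ih fun i hi => hQ i (Finset.mem_insert_of_mem hi)
    calc cp N (Q a) * ∏ i ∈ s, cp N (Q i)
        ≤ cp N (Q a) * cp N (fun W => ∀ i ∈ s, Q i W) :=
          mul_le_mul_of_nonneg_left h1 (cp_nonneg _ _)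
      _ ≤ cp N (fun W => Q a W ∧ ∀ i ∈ s, Q i W) := by
          apply cp_harris hN (hQ a (Finset.mem_insert_self a s))
          intro W W' hWW' h i hi
          exact hQ i (Finset.mem_insert_of_mem hi) W W' hWW' (h i hi)
      _ ≤ _ := by
          apply cp_mono hN
          rintro W _ ⟨h1, h2⟩ i hi
          rcases Finset.mem_insert.1 hi with rfl | hi
          · exact h1
          · exact h2 i hi

/-- **Harris** for two increasing events. -/
theorem cp_harris_inc {N : Set α} (hN : N.Finite) {Q Q' : Set α → Prop}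
    (hQ : ∀ W W', W ⊆ W' → Q W → Q W') (hQ' : ∀ W W', W ⊆ W' → Q' W → Q' W') :
    cp N Q * cp N Q' ≤ cp N (fun W => Q W ∧ Q' W) := by
  rw [← cp_compl Q, ← cp_compl Q', ← cp_compl (fun W => Q W ∧ Q' W)]
  exact cp_harris hN (fun W W' h => hQ _ _ (sdiff_subset_sdiff_right h))
    (fun W W' h => hQ' _ _ (sdiff_subset_sdiff_right h))

theorem cp_harris_prod_inc {N : Set α} (hN : N.Finite) (s : Finset ι) {Q : ι → Set α → Prop}
    (hQ : ∀ i ∈ s, ∀ W W', W ⊆ W' → Q i W → Q i W') :
    ∏ i ∈ s, cp N (Q i) ≤ cp N (fun W => ∀ i ∈ s, Q i W) := by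
  rw [← cp_compl (fun W => ∀ i ∈ s, Q i W)]
  have h1 : ∏ i ∈ s, cp N (Q i) = ∏ i ∈ s, cp N (fun W => Q i (N \ W)) :=
    Finset.prod_congr rfl fun i _ => (cp_compl _).symm
  rw [h1]
  exact cp_harris_prod hN s (fun i hi W W' h => hQ i hi _ _ (sdiff_subset_sdiff_right h))

/-- **None of finitely many unlikely increasing events happens** with probability at least
`2 ^ (-m)`. -/
theorem cp_none_ge {N : Set α} (hN : N.Finite) (s : Finset ι) {F : ι → Set α → Prop}
    (hF : ∀ i ∈ s, ∀ W W', W ⊆ W' → F i W → F i W') {q : ℝ} (hq : q ≤ 1)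
    (hp : ∀ i ∈ s, cp N (F i) ≤ q) :
    (1 - q) ^ s.card ≤ cp N (fun W => ∀ i ∈ s, ¬ F i W) := by
  refine le_trans ?_ (cp_harris_prod hN s (Q := fun i W => ¬ F i W)
    (fun i hi W W' h h1 h2 => h1 (hF i hi W W' h h2)))
  rw [← Finset.prod_const]
  apply Finset.prod_le_prod
  · intro i _
    linarith
  · intro i hi
    rw [cp_not hN]
    linarith [hp i hi]

/-- The same for decreasing events. -/
theorem cp_none_ge_dec {N : Set α} (hN : N.Finite) (s : Finset ι) {F : ι → Set α → Prop}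
    (hF : ∀ i ∈ s, ∀ W W', W ⊆ W' → F i W' → F i W) {q : ℝ} (hq : q ≤ 1)
    (hp : ∀ i ∈ s, cp N (F i) ≤ q) :
    (1 - q) ^ s.card ≤ cp N (fun W => ∀ i ∈ s, ¬ F i W) := by
  refine le_trans ?_ (cp_harris_prod_inc hN s (Q := fun i W => ¬ F i W)
    (fun i hi W W' h h1 h2 => h1 (hF i hi W W' h h2)))
  rw [← Finset.prod_const]
  apply Finset.prod_le_prod
  · intro i _
    linarith
  · intro i hi
    rw [cp_not hN]
    linarith [hp i hi]

/-! ### Independence -/

/-- Events which depend on disjoint sets are independent. -/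
theorem cp_prod {A B : Set α} (hA : A.Finite) (hB : B.Finite) (hd : Disjoint A B)
    {Q Q' : Set α → Prop} (hQ : ∀ W, Q W ↔ Q (W ∩ A)) (hQ' : ∀ W, Q' W ↔ Q' (W ∩ B)) :
    cp (A ∪ B) (fun W => Q W ∧ Q' W) = cp A Q * cp B Q' := by
  have h1 : {W | W ⊆ A ∪ B ∧ (Q W ∧ Q' W)}.ncard =
      ({W | W ⊆ A ∧ Q W} ×ˢ {W | W ⊆ B ∧ Q' W}).ncard := by
    refine Set.ncard_congr (fun W _ => (W ∩ A, W ∩ B)) ?_ ?_ ?_
    · intro W hW
      exact ⟨⟨inter_subset_right, (hQ W).1 hW.2.1⟩, ⟨inter_subset_right, (hQ' W).1 hW.2.2⟩⟩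
    · intro W W' hW hW' h
      have h2 := congrArg Prod.fst h
      have h3 := congrArg Prod.snd h
      simp only at h2 h3
      rw [← inter_eq_left.2 hW.1, ← inter_eq_left.2 hW'.1, inter_union_distrib_left,
        inter_union_distrib_left, h2, h3]
    · rintro ⟨A', B'⟩ ⟨hA', hB'⟩
      have hA1 : A' ⊆ A := hA'.1
      have hB1 : B' ⊆ B := hB'.1
      have e1 : (A' ∪ B') ∩ A = A' := by
        ext x
        constructor
        · rintro ⟨hx | hx, hxG⟩
          · exact hx
          · exact absurd (hB1 hx) (Set.disjoint_left.1 hd hxG)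
        · intro hx
          exact ⟨Or.inl hx, hA1 hx⟩
      have e2 : (A' ∪ B') ∩ B = B' := by
        ext x
        constructor
        · rintro ⟨hx | hx, hxG⟩
          · exact absurd hxG (Set.disjoint_left.1 hd (hA1 hx))
          · exact hx
        · intro hx
          exact ⟨Or.inr hx, hB1 hx⟩
      refine ⟨A' ∪ B', ⟨union_subset_union hA1 hB1, ?_, ?_⟩, ?_⟩
      · rw [hQ, e1]; exact hA'.2
      · rw [hQ', e2]; exact hB'.2
      · rw [e1, e2]
  unfold cp
  rw [h1, Set.ncard_prod, Set.ncard_union_eq hd hA hB, pow_add]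
  push_cast
  rw [mul_div_mul_comm]

/-- An event which depends on a part only. -/
theorem cp_restrict {N A : Set α} (hN : N.Finite) (hA : A ⊆ N) {Q : Set α → Prop}
    (hQ : ∀ W, Q W ↔ Q (W ∩ A)) : cp N Q = cp A Q := by
  have h1 : N = A ∪ (N \ A) := (union_sdiff_cancel hA).symm
  have h2 := cp_prod (hN.subset hA) (hN.subset sdiff_subset)
    (disjoint_sdiff_right : Disjoint A (N \ A)) (Q := Q) (Q' := fun _ => True) hQ (fun _ => Iff.rfl)
  rw [cp_true (hN.subset sdiff_subset), mul_one, ← h1] at h2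
  rw [← h2]
  exact cp_congr fun W _ => by simp

/-- **Independence** of two events which depend on disjoint parts of `N`. -/
theorem cp_indep {N : Set α} (hN : N.Finite) {A B : Set α} (hd : Disjoint A B)
    {Q Q' : Set α → Prop} (hQ : ∀ W, Q W ↔ Q (W ∩ A)) (hQ' : ∀ W, Q' W ↔ Q' (W ∩ B)) :
    cp N (fun W => Q W ∧ Q' W) = cp N Q * cp N Q' := by
  have e : N = (N ∩ A) ∪ (N \ A) := (inter_union_sdiff N A).symm
  have hNA : (N ∩ A) ⊆ N := inter_subset_left
  have hNB : (N \ A) ⊆ N := sdiff_subset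
  -- replace the events by those determined inside `N`
  have hc : ∀ (R : Set α → Prop) (C : Set α), (∀ W, R W ↔ R (W ∩ C)) →
      ∀ W, R (W ∩ N) ↔ R ((W ∩ (N ∩ C)) ∩ N) := by
    intro R C hR W
    rw [hR (W ∩ N), show (W ∩ N) ∩ C = (W ∩ (N ∩ C)) ∩ N by ext x; simp; tauto]
  have hQ1 := hc Q A hQ
  have hQ2 : ∀ W, Q' (W ∩ N) ↔ Q' ((W ∩ (N \ A)) ∩ N) := by
    intro W
    rw [hQ' (W ∩ N), hQ' ((W ∩ (N \ A)) ∩ N)]
    have : (W ∩ N) ∩ B = ((W ∩ (N \ A)) ∩ N) ∩ B := by
      ext x
      constructor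
      · rintro ⟨⟨h1, h2⟩, h3⟩
        exact ⟨⟨⟨h1, h2, fun h4 => Set.disjoint_left.1 hd h4 h3⟩, h2⟩, h3⟩
      · rintro ⟨⟨⟨h1, h2, _⟩, _⟩, h3⟩
        exact ⟨⟨h1, h2⟩, h3⟩
    rw [this]
  have h1 := cp_prod (hN.subset hNA) (hN.subset hNB)
    (disjoint_sdiff_right.mono_left inter_subset_right) (Q := fun W => Q (W ∩ N))
    (Q' := fun W => Q' (W ∩ N)) hQ1 hQ2
  rw [← e] at h1
  have g1 : cp N Q = cp N (fun W => Q (W ∩ N)) :=
    cp_congr fun W hW => by rw [inter_eq_left.2 hW]
  have g2 : cp N Q' = cp N (fun W => Q' (W ∩ N)) :=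
    cp_congr fun W hW => by rw [inter_eq_left.2 hW]
  have g3 : cp N (fun W => Q W ∧ Q' W) = cp N (fun W => Q (W ∩ N) ∧ Q' (W ∩ N)) :=
    cp_congr fun W hW => by rw [inter_eq_left.2 hW]
  rw [g1, g2, g3, h1, cp_restrict hN hNA hQ1, cp_restrict hN hNB hQ2]

/-- **Independence** of finitely many events which depend on pairwise disjoint parts. -/
theorem cp_indep_prod {N : Set α} (hN : N.Finite) (s : Finset ι) (A : ι → Set α)
    (hd : ∀ i ∈ s, ∀ j ∈ s, i ≠ j → Disjoint (A i) (A j)) {Q : ι → Set α → Prop}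
    (hQ : ∀ i ∈ s, ∀ W, Q i W ↔ Q i (W ∩ A i)) :
    cp N (fun W => ∀ i ∈ s, Q i W) = ∏ i ∈ s, cp N (Q i) := by
  classical
  induction s using Finset.induction_on with
  | empty =>
    simp only [Finset.notMem_empty, IsEmpty.forall_iff, implies_true, Finset.prod_empty]
    rw [cp_true hN]
  | insert a s ha ih =>
    rw [Finset.prod_insert ha, ← ih (fun i hi j hj => hd i (Finset.mem_insert_of_mem hi) j
      (Finset.mem_insert_of_mem hj)) (fun i hi => hQ i (Finset.mem_insert_of_mem hi))]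
    have h1 := cp_indep hN (A := A a) (B := ⋃ i ∈ s, A i) (Q := Q a)
      (Q' := fun W => ∀ i ∈ s, Q i W) ?_ (hQ a (Finset.mem_insert_self a s)) ?_
    · rw [← h1]
      apply cp_congr
      intro W _
      constructor
      · intro h
        exact ⟨h a (Finset.mem_insert_self a s), fun i hi => h i (Finset.mem_insert_of_mem hi)⟩
      · rintro ⟨h1, h2⟩ i hi
        rcases Finset.mem_insert.1 hi with rfl | hi
        · exact h1
        · exact h2 i hi
    · rw [Set.disjoint_iUnion₂_right]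
      intro i hi
      apply hd a (Finset.mem_insert_self a s) i (Finset.mem_insert_of_mem hi)
      rintro rfl
      exact ha hi
    · intro W
      refine forall₂_congr fun i hi => ?_
      rw [hQ i (Finset.mem_insert_of_mem hi), hQ i (Finset.mem_insert_of_mem hi)
        (W ∩ ⋃ i ∈ s, A i)]
      have : W ∩ (⋃ i ∈ s, A i) ∩ A i = W ∩ A i := by
        ext x
        constructor
        · rintro ⟨⟨h1, _⟩, h2⟩
          exact ⟨h1, h2⟩
        · rintro ⟨h1, h2⟩
          exact ⟨⟨h1, mem_iUnion₂.2 ⟨i, hi, h2⟩⟩, h2⟩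
      rw [this]

/-- **The product bound** for an event which forces all of finitely many independent events. -/
theorem cp_le_pow {N : Set α} (hN : N.Finite) (s : Finset ι) (A : ι → Set α)
    (hd : ∀ i ∈ s, ∀ j ∈ s, i ≠ j → Disjoint (A i) (A j)) {Q : ι → Set α → Prop}
    (hQ : ∀ i ∈ s, ∀ W, Q i W ↔ Q i (W ∩ A i)) {R : Set α → Prop}
    (hR : ∀ W ⊆ N, R W → ∀ i ∈ s, Q i W) {q : ℝ} (hq : ∀ i ∈ s, cp N (Q i) ≤ q) :
    cp N R ≤ q ^ s.card := by
  refine (cp_mono hN hR).trans ?_
  rw [cp_indep_prod hN s A hd hQ, ← Finset.prod_const]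
  exact Finset.prod_le_prod (fun i _ => cp_nonneg _ _) hq

/-- For an increasing event the probability increases with the set of the points. -/
theorem cp_mono_set {N M : Set α} (hN : N.Finite) (hM : M ⊆ N) {Q : Set α → Prop}
    (hQ : ∀ W W', W ⊆ W' → Q W → Q W') : cp M Q ≤ cp N Q := by
  have h1 : cp M Q = cp M (fun W => Q (W ∩ M)) :=
    cp_congr fun W hW => by rw [inter_eq_left.2 hW]
  have h2 : cp N (fun W => Q (W ∩ M)) = cp M (fun W => Q (W ∩ M)) :=
    cp_restrict hN hM fun W => by rw [inter_assoc, inter_self]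
  rw [h1, ← h2]
  exact cp_mono hN fun W _ h => hQ _ _ inter_subset_left h

/-! ### Colourings `V → Bool` -/

section Col

variable {V : Type*} [Fintype V]

/-- The probability of an event for the uniform colourings of a finite type. -/
theorem card_eq_cp (E : (V → Bool) → Prop) (c : Bool) :
    (Nat.card {σ : V → Bool // E σ} : ℝ) / 2 ^ Fintype.card V =
      cp (univ : Set V) (fun W => ∃ σ : V → Bool, E σ ∧ W = {v | σ v = c}) := by
  classical
  unfold cp
  rw [Set.ncard_univ, Nat.card_eq_fintype_card (α := V)]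
  congr 2
  rw [← Nat.card_coe_set_eq]
  refine Nat.card_eq_of_bijective (fun σ : {σ : V → Bool // E σ} =>
    (⟨{v | σ.1 v = c}, subset_univ _, σ.1, σ.2, rfl⟩ :
      {W | W ⊆ (univ : Set V) ∧ ∃ σ : V → Bool, E σ ∧ W = {v | σ v = c}})) ⟨?_, ?_⟩
  · intro σ τ h
    have h1 : {v | σ.1 v = c} = {v | τ.1 v = c} := congrArg Subtype.val h
    apply Subtype.ext
    funext v
    have h2 : σ.1 v = c ↔ τ.1 v = c := by
      constructor
      · intro h3
        have : v ∈ {v | σ.1 v = c} := h3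
        rw [h1] at this
        exact this
      · intro h3
        have : v ∈ {v | τ.1 v = c} := h3
        rw [← h1] at this
        exact this
    cases c <;> cases h3 : σ.1 v <;> cases h4 : τ.1 v <;> simp_all
  · rintro ⟨W, _, σ, hσ, rfl⟩
    exact ⟨⟨σ, hσ⟩, rfl⟩

end Col

end Vale.Agent.P148.R2.H938
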