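import Vale.Agent.P148.R2.H938.Hp
import Vale.Agent.P148.R2.H995.Surg
import Vale.Agent.P148.R2.H847.Osc

/-!
# Arms across square annuli: restriction to the annulus, product over disjoint annuli (R1)
-/

open Set Metric

namespace Vale.Agent.P148.R2.H938

open Vale.Agent.P148.R2.H995 (Turn nsup centre HPArm SqArm)
open Vale.Agent.P148.R2.H592 (nbr vcell HullTri)
open Vale.Agent.P148.R2.H847 (qpr UArm)

theorem qpr_eq_cp (N : Set ℂ) (Q : Set ℂ → Prop) : qpr N Q = cp N Q := rfl

/-! ### sup norm -/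

theorem nsup_le_norm (z : ℂ) : nsup z ≤ ‖z‖ :=
  max_le (Complex.abs_re_le_norm z) (Complex.abs_im_le_norm z)

theorem norm_le_two_nsup (z : ℂ) : ‖z‖ ≤ 2 * nsup z := by
  have h1 := Complex.norm_le_abs_re_add_abs_im z
  have h2 : |z.re| ≤ nsup z := le_max_left _ _
  have h3 : |z.im| ≤ nsup z := le_max_right _ _
  linarith

theorem nsup_sub_le (p z w : ℂ) : nsup (z - p) ≤ nsup (w - p) + dist z w := by
  have h1 : ‖z - w‖ = dist z w := (Complex.dist_eq z w).symm
  have h2 := Complex.abs_re_le_norm (z - w)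
  have h3 := Complex.abs_im_le_norm (z - w)
  rw [h1] at h2 h3
  apply max_le
  · have h4 : (z - p).re = (w - p).re + (z - w).re := by simp
    rw [h4]
    refine (abs_add_le _ _).trans (add_le_add (le_max_left _ _) h2)
  · have h4 : (z - p).im = (w - p).im + (z - w).im := by simp
    rw [h4]
    refine (abs_add_le _ _).trans (add_le_add (le_max_right _ _) h3)

/-! ### paths -/

theorem exists_path {α : Type*} {R : α → α → Prop} {a b : α} (h : Relation.ReflTransGen R a b) :
    ∃ (n : ℕ) (v : ℕ → α), v 0 = a ∧ v n = b ∧ ∀ i < n, R (v i) (v (i + 1)) := by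
  induction h with
  | refl => exact ⟨0, fun _ => a, rfl, rfl, fun i hi => absurd hi (Nat.not_lt_zero i)⟩
  | @tail y z _ hyz ih =>
    obtain ⟨n, v, h0, hn, hv⟩ := ih
    refine ⟨n + 1, fun i => if i ≤ n then v i else z, ?_, ?_, ?_⟩
    · simp [h0]
    · simp
    · intro i hi
      show R (if i ≤ n then v i else z) (if i + 1 ≤ n then v (i + 1) else z)
      rcases (Nat.lt_succ_iff.1 hi).lt_or_eq with h | h
      · rw [if_pos h.le, if_pos (by omega)]
        exact hv i h
      · subst h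
        rw [if_pos le_rfl, if_neg (by omega), hn]
        exact hyz

theorem path_mem {α : Type*} {R : α → α → Prop} {W : Set α} {n : ℕ} {v : ℕ → α} (h0 : v 0 ∈ W)
    (h : ∀ i < n, R (v i) (v (i + 1)) ∧ v i ∈ W ∧ v (i + 1) ∈ W) : ∀ i ≤ n, v i ∈ W := by
  intro i hi
  rcases Nat.eq_zero_or_pos i with h1 | h1
  · rw [h1]; exact h0
  · have := (h (i - 1) (by omega)).2.2
    rwa [Nat.sub_add_cancel h1] at this

/-- The square annulus with margins. -/
def Ann (p : ℂ) (r : ℝ) : Set ℂ := {z | 7 / 8 * r < nsup (z - p) ∧ nsup (z - p) < 25 / 8 * r}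

/-- Restriction of an arm to an annulus. -/
theorem sqArm_of_path {rel : ℂ → ℂ → Prop} {W : Set ℂ} {p : ℂ} {r : ℝ} (hr : 0 < r) {n : ℕ}
    {v : ℕ → ℂ} (hrel : ∀ i < n, rel (v i) (v (i + 1))) (hW : ∀ i ≤ n, v i ∈ W)
    (he : ∀ i < n, nsup (v i - p) < 3 * r → dist (v i) (v (i + 1)) ≤ r / 8 / 2)
    (h0 : nsup (v 0 - p) ≤ r) (h1 : 3 * r ≤ nsup (v n - p)) :
    SqArm rel (W ∩ Ann p r) p r (3 * r) := by
  classical
  have hex : ∃ i, 3 * r ≤ nsup (v i - p) := ⟨n, h1⟩
  set b := Nat.find hex with hb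
  have hbR : 3 * r ≤ nsup (v b - p) := Nat.find_spec hex
  have hbn : b ≤ n := Nat.find_min' hex h1
  have hlt : ∀ i < b, nsup (v i - p) < 3 * r := fun i hi => not_le.1 (Nat.find_min hex hi)
  set a := Nat.findGreatest (fun i => nsup (v i - p) ≤ r) b with ha
  have ha1 : nsup (v a - p) ≤ r := Nat.findGreatest_spec (P := fun i => nsup (v i - p) ≤ r)
    (Nat.zero_le b) h0
  have hab : a ≤ b := Nat.findGreatest_le b
  have hab' : a < b := by
    rcases hab.lt_or_eq with h | h
    · exact h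
    · rw [h] at ha1; linarith
  have hgt : ∀ i, a < i → i ≤ b → r < nsup (v i - p) := fun i hi hib =>
    not_le.1 (Nat.findGreatest_is_greatest (P := fun i => nsup (v i - p) ≤ r) hi hib)
  have haA : 7 / 8 * r < nsup (v a - p) := by
    have h2 := hgt (a + 1) (by omega) hab'
    have h3 := nsup_sub_le p (v (a + 1)) (v a)
    have h4 := he a (by omega) (hlt a hab')
    rw [dist_comm] at h4
    linarith
  have hbA : nsup (v b - p) < 25 / 8 * r := by
    have h2 := hlt (b - 1) (by omega)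
    have h3 := nsup_sub_le p (v b) (v (b - 1))
    have h4 := he (b - 1) (by omega) h2
    rw [Nat.sub_add_cancel (by omega : 1 ≤ b), dist_comm] at h4
    linarith
  refine ⟨b - a, fun i => v (a + i), fun i hi => hrel (a + i) (by omega), fun i hi => ?_, ?_, ?_⟩
  · refine ⟨hW _ (by omega), ?_⟩
    rcases Nat.eq_zero_or_pos i with h | h
    · subst h
      refine ⟨haA, ?_⟩
      show nsup (v a - p) < _
      linarith
    · by_cases hib : a + i = b
      · show 7 / 8 * r < nsup (v (a + i) - p) ∧ nsup (v (a + i) - p) < 25 / 8 * r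
        rw [hib]
        refine ⟨?_, hbA⟩
        linarith
      · have h2 := hgt (a + i) (by omega) (by omega)
        have h3 := hlt (a + i) (by omega)
        exact ⟨by linarith, by linarith⟩
  · exact ha1
  · show 3 * r ≤ nsup (v (a + (b - a)) - p)
    rw [Nat.add_sub_cancel' hab]
    exact hbR

/-- The annuli at the scales `4 ^ (-i)` are disjoint. -/
theorem disjoint_ann (p : ℂ) {r0 : ℝ} (hr : 0 < r0) {i j : ℕ} (hij : i ≠ j) :
    Disjoint (Ann p (r0 / 4 ^ i)) (Ann p (r0 / 4 ^ j)) := by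
  wlog h : i < j generalizing i j
  · exact (this hij.symm (by omega)).symm
  rw [Set.disjoint_left]
  rintro z ⟨h1, -⟩ ⟨-, h2⟩
  have h3 : r0 / 4 ^ j ≤ r0 / 4 ^ i / 4 := by
    rw [div_div, ← pow_succ]
    apply div_le_div_of_nonneg_left hr.le (by positivity)
    exact pow_le_pow_right₀ (by norm_num) (by omega)
  have h4 : 0 < r0 / 4 ^ i := by positivity
  linarith

/-- **Product over the scales.** -/
theorem arm_prod {X : Set ℂ} (hX : X.Finite) {p : ℂ} {ρ δ e q : ℝ} (hρ : 0 < ρ) (m : ℕ)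
    (hδ : δ ≤ ρ / 6 / 4 ^ m) (he : e ≤ ρ / 6 / 4 ^ m / 8 / 2)
    (hedge : ∀ u v, nbr X u v → dist u p < ρ → dist u v ≤ e)
    (hq : ∀ i < m, cp X (fun W => SqArm (nbr X) (W ∩ Ann p (ρ / 6 / 4 ^ i)) p (ρ / 6 / 4 ^ i)
      (3 * (ρ / 6 / 4 ^ i))) ≤ q) :
    cp X (fun W => UArm X W (closedBall p δ) (ball p ρ)ᶜ) ≤ q ^ m := by
  have hri : ∀ i < m, ρ / 6 / 4 ^ m ≤ ρ / 6 / 4 ^ i := by
    intro i hi
    apply div_le_div_of_nonneg_left (by positivity) (by positivity)
    exact pow_le_pow_right₀ (by norm_num) hi.le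
  have hri' : ∀ i, ρ / 6 / 4 ^ i ≤ ρ / 6 := by
    intro i
    apply div_le_self (by positivity)
    exact one_le_pow₀ (by norm_num)
  have key := cp_le_pow hX (Finset.range m) (fun i => Ann p (ρ / 6 / 4 ^ i))
    (fun i _ j _ hij => disjoint_ann p (by positivity) hij)
    (Q := fun i W => SqArm (nbr X) (W ∩ Ann p (ρ / 6 / 4 ^ i)) p (ρ / 6 / 4 ^ i)
      (3 * (ρ / 6 / 4 ^ i)))
    (fun i _ W => by rw [inter_assoc, inter_self])
    (R := fun W => UArm X W (closedBall p δ) (ball p ρ)ᶜ) ?_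
    (fun i hi => hq i (Finset.mem_range.1 hi))
  · rwa [Finset.card_range] at key
  · rintro W - ⟨x, hx, hxW, z, hz, hxz⟩ i hi
    have hi' := Finset.mem_range.1 hi
    obtain ⟨n, v, hv0, hvn, hv⟩ := exists_path hxz
    have h1 := hri i hi'
    have h2 := hri' i
    have h3 : 0 < ρ / 6 / 4 ^ i := by positivity
    apply sqArm_of_path h3 (fun k hk => (hv k hk).1)
    · apply path_mem (R := fun a b => nbr X a b)
      · rw [hv0]; exact hxW
      · exact hv
    · intro k hk hlt
      have h4 := norm_le_two_nsup (v k - p)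
      have h5 : dist (v k) p < ρ := by
        rw [Complex.dist_eq]
        linarith
      refine (hedge _ _ (hv k hk).1 h5).trans (he.trans ?_)
      linarith
    · rw [hv0]
      refine (nsup_le_norm _).trans ?_
      rw [mem_closedBall, Complex.dist_eq] at hx
      linarith
    · rw [hvn]
      have h4 := norm_le_two_nsup (z - p)
      have h5 : ρ ≤ dist z p := by
        rw [mem_compl_iff, mem_ball, not_lt] at hz
        exact hz
      rw [Complex.dist_eq] at h5
      linarith

end Vale.Agent.P148.R2.H938
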