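import Vale.Agent.P148.R2.H938.ArmF
import Vale.Agent.P148.R2.H320.Hp
import Vale.Agent.P148.R2.H291.Whp

/-!
# The one-arm bound and the half-plane arm bound, unconditional (R1/R4/R5)
-/

namespace Vale.Agent.P148.R2.H938

universe u

theorem hp : HP := by
  intro X b h k ι hι l C ε η ρ R D J hJ hC hnet hb hε hη hρ0 hρ hR hD
  exact H320.hp_qpr h hι hJ hC hnet hb hε hη hρ0 hρ hR hD

theorem energyWhp : EnergyWhp.{u} H291.C0 := fun k _ hr => H291.whp_ed_two k hr

/-- **The one-arm bound.** -/
theorem arm : F.ArmStmt.{u} := armStmt hp H291.C0_nonneg energyWhp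

/-- **The half-plane arm bound.** -/
theorem hps : HPStmt.{u} := hpStmt hp H291.C0_nonneg energyWhp

end Vale.Agent.P148.R2.H938
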