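import Vale.Agent.P148.R2.H938.ArmS
import Vale.Agent.P148.R2.H847.BV

/-!
# Boundary values and equicontinuity of the observables, unconditional (row BV)
-/

namespace Vale.Agent.P148.R2.H938

universe u

/-- **Boundary values and equicontinuity of the observables.** -/
theorem bvs : F.BVStmt.{u} := H847.bv arm

end Vale.Agent.P148.R2.H938
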