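import Vale.Agent.P148.R2.H938.An
import Vale.Agent.P148.R2.H291.Good

/-!
# The quenched bound for one square annulus, from the half-plane arm bound and Harris (R1)
-/

open Set Metric

namespace Vale.Agent.P148.R2.H938

open Vale.Agent.P148.R2.H995 (Turn nsup centre HPArm SqArm)
open Vale.Agent.P148.R2.H592 (nbr vcell HullTri)
open Vale.Agent.P148.R2.H847 (qpr UArm)
open Vale.Agent.P148.R2.H291 (GoodAt)

/-- The half-plane arm bound (helper320). -/
def HP : Prop :=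
  ∀ {X : Set ℂ} {b : ZMod 3 → ℂ}, HullTri X b → ∀ {k ι : ℂ}, ‖ι‖ = 1 →
    ∀ {l C ε η ρ R D : ℝ} {J : ℕ}, 1 ≤ J → GoodAt X k l J C →
    (∀ z ∈ closedBall k (R + 4 * ε), ∀ x ∈ X, z ∈ vcell X x → dist z x ≤ ε) →
    (∀ j, R ≤ dist (b j) k) → 0 < ε → 3 * ε ≤ η → 0 ≤ ρ → ρ + 4 * ε ≤ l → 2 ^ J * l ≤ R → R ≤ D →
    qpr X (fun W => HPArm (nbr X) W k ι η ρ D) ≤ 272 * C / J

theorem HPArm.mono {rel : ℂ → ℂ → Prop} {W W' : Set ℂ} (h : W ⊆ W') {k ι : ℂ} {η ρ D : ℝ}
    (hW : HPArm rel W k ι η ρ D) : HPArm rel W' k ι η ρ D := by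
  obtain ⟨n, v, h1, h2, h3, h4⟩ := hW
  exact ⟨n, v, h1, fun i hi => ⟨h (h2 i hi).1, (h2 i hi).2⟩, h3, h4⟩

theorem SqArm.mono {rel : ℂ → ℂ → Prop} {W W' : Set ℂ} (h : W ⊆ W') {p : ℂ} {r R : ℝ}
    (hW : SqArm rel W p r R) : SqArm rel W' p r R := by
  obtain ⟨n, v, h1, h2, h3, h4⟩ := hW
  exact ⟨n, v, h1, fun i hi => h (h2 i hi), h3, h4⟩

/-- Short edges from the net condition. -/
theorem edge_le {X : Set ℂ} {p : ℂ} {R ε : ℝ} (hε : 0 < ε)
    (hnet : ∀ z ∈ closedBall p R, ∀ x ∈ X, z ∈ vcell X x → dist z x ≤ ε) {u v : ℂ}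
    (h : nbr X u v) (hu : dist u p + 2 * ε ≤ R) : dist u v ≤ 2 * ε := by
  obtain ⟨huX, hvX, hne, y, hyu, hyv⟩ := h
  have hy : dist y u ≤ ε := by
    by_contra hcon
    push Not at hcon
    set d := dist y u with hd
    have hd0 : 0 < d := hε.trans hcon
    set t : ℝ := (min d (2 * ε)) / d with ht
    have hm : ε < min d (2 * ε) := lt_min hcon (by linarith)
    have ht0 : 0 ≤ t := div_nonneg (hε.le.trans hm.le) hd0.le
    have ht1 : t ≤ 1 := (div_le_one hd0).2 (min_le_left _ _)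
    have h1 := H592.seg_mem_vcell (H592.self_mem_vcell X u) hyu ht0 ht1
    have h2 : dist (u + (t : ℂ) * (y - u)) u = min d (2 * ε) := by
      rw [Complex.dist_eq, add_sub_cancel_left, norm_mul, Complex.norm_real,
        Real.norm_of_nonneg ht0, ← Complex.dist_eq, ← hd, ht, div_mul_cancel₀ _ hd0.ne']
    have h3 : u + (t : ℂ) * (y - u) ∈ closedBall p R := by
      rw [mem_closedBall]
      refine (dist_triangle _ u _).trans ?_
      rw [h2]
      have := min_le_right d (2 * ε)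
      linarith
    have h4 := hnet _ h3 u huX h1
    rw [h2] at h4
    linarith
  have hyp : y ∈ closedBall p R := by
    rw [mem_closedBall]
    refine (dist_triangle _ u _).trans ?_
    linarith
  have h5 := hnet y hyp v hvX hyv
  have h6 := dist_triangle_left u v y
  linarith

/-- The indices of the centres. -/
noncomputable def idx (J : ℕ) : Finset (ℂ × ℤ) :=
  ({1, Complex.I, -1, -Complex.I} : Finset ℂ) ×ˢ Finset.Icc (-(6 * 2 ^ J + 1 : ℤ)) (6 * 2 ^ J + 1)

theorem mem_idx {J : ℕ} {a : ℂ × ℤ} : a ∈ idx J ↔ Turn a.1 ∧ |(a.2 : ℝ)| ≤ 6 * 2 ^ J + 1 := by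
  unfold idx Turn
  rw [Finset.mem_product, Finset.mem_Icc, ← abs_le]
  simp only [Finset.mem_insert, Finset.mem_singleton]
  have h1 : |a.2| ≤ (6 * 2 ^ J + 1 : ℤ) ↔ |(a.2 : ℝ)| ≤ 6 * 2 ^ J + 1 := by
    rw [← Int.cast_abs]
    constructor
    · intro h
      have : ((|a.2| : ℤ) : ℝ) ≤ ((6 * 2 ^ J + 1 : ℤ) : ℝ) := by exact_mod_cast h
      push_cast at this ⊢
      exact this
    · intro h
      have : ((|a.2| : ℤ) : ℝ) ≤ ((6 * 2 ^ J + 1 : ℤ) : ℝ) := by
        push_cast at h ⊢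
        exact h
      exact_mod_cast this
  rw [h1]

theorem card_idx_le (J : ℕ) : (idx J).card ≤ 4 * (12 * 2 ^ J + 3) := by
  unfold idx
  rw [Finset.card_product, Int.card_Icc]
  apply Nat.mul_le_mul
  · refine (Finset.card_insert_le _ _).trans ?_
    refine Nat.succ_le_succ ((Finset.card_insert_le _ _).trans ?_)
    refine Nat.succ_le_succ ((Finset.card_insert_le _ _).trans ?_)
    simp
  · have : (6 * 2 ^ J + 1 + 1 - -(6 * 2 ^ J + 1) : ℤ) = ((12 * 2 ^ J + 3 : ℕ) : ℤ) := by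
      push_cast; ring
    rw [this, Int.toNat_natCast]

/-- The bound of the probability that there is no arm across a square annulus. -/
noncomputable def p0 (J : ℕ) : ℝ := (1 / 2) ^ (4 * (12 * 2 ^ J + 3))

theorem p0_pos (J : ℕ) : 0 < p0 J := by unfold p0; positivity

theorem p0_le (J : ℕ) : p0 J ≤ 1 := by
  unfold p0
  exact pow_le_one₀ (by norm_num) (by norm_num)

theorem dist_centre_le {p ι : ℂ} (hι : Turn ι) {r : ℝ} (hr : 0 < r) {J : ℕ}
    {j : ℤ} (hj : |(j : ℝ)| ≤ 6 * 2 ^ J + 1) :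
    dist (centre p ι r (3 * (2 * r / 2 ^ J / 16)) (2 * r / 2 ^ J / 4) j) p ≤ 9 / 2 * r := by
  set l := 2 * r / 2 ^ J with hl
  have h2 : (1 : ℝ) ≤ 2 ^ J := one_le_pow₀ (by norm_num)
  have hl0 : 0 < l := by positivity
  have hl1 : l ≤ 2 * r := div_le_self (by positivity) h2
  have hl2 : 2 ^ J * l = 2 * r := by rw [hl]; field_simp
  unfold centre
  rw [Complex.dist_eq, add_sub_cancel_left, norm_mul, RCLike.norm_conj, hι.norm, one_mul]
  refine (norm_add_le _ _).trans ?_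
  rw [norm_mul, Complex.norm_I, mul_one, Complex.norm_real, Complex.norm_real, Real.norm_eq_abs,
    Real.norm_eq_abs, abs_mul, abs_of_pos (by positivity : 0 < l / 4)]
  have h3 : |r - 3 * (l / 16)| ≤ r := by
    rw [abs_le]; constructor <;> linarith
  have h4 : |(j : ℝ)| * (l / 4) ≤ (6 * 2 ^ J + 1) * (l / 4) :=
    mul_le_mul_of_nonneg_right hj (by positivity)
  have h5 : (6 * 2 ^ J + 1) * (l / 4) = 3 / 2 * (2 ^ J * l) + l / 4 := by ring
  rw [h5, hl2] at h4
  linarith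

/-- **The quenched bound for one annulus.** -/
theorem sq_arm_le (hHP : HP) {X : Set ℂ} {b : ZMod 3 → ℂ} (h : HullTri X b) {p : ℂ} {r C : ℝ}
    (hr : 0 < r) {J : ℕ} (hJ : 1 ≤ J) (hC : 272 * C / J ≤ 1 / 2)
    (hgood : ∀ a ∈ idx J, GoodAt X (centre p a.1 r (3 * (2 * r / 2 ^ J / 16)) (2 * r / 2 ^ J / 4) a.2)
      (2 * r / 2 ^ J) J C)
    (hnet : ∀ z ∈ closedBall p (8 * r), ∀ x ∈ X, z ∈ vcell X x → dist z x ≤ 2 * r / 2 ^ J / 16)
    (hb : ∀ j, 8 * r ≤ dist (b j) p) :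
    cp X (fun W => SqArm (nbr X) (W ∩ Ann p r) p r (3 * r)) ≤ 1 - p0 J := by
  set l := 2 * r / 2 ^ J with hl
  have h2 : (1 : ℝ) ≤ 2 ^ J := one_le_pow₀ (by norm_num)
  have h22 : (2 : ℝ) ≤ 2 ^ J := by
    calc (2 : ℝ) = 2 ^ 1 := (pow_one _).symm
      _ ≤ 2 ^ J := pow_le_pow_right₀ (by norm_num) hJ
  have hl0 : 0 < l := by positivity
  have hl1 : l ≤ r := by
    rw [hl, div_le_iff₀ (by positivity)]
    nlinarith
  have hl2 : 2 ^ J * l = 2 * r := by rw [hl]; field_simp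
  -- the half-plane arms
  set F : ℂ × ℤ → Set ℂ → Prop := fun a W =>
    HPArm (nbr X) (W ∩ Ann p r) (centre p a.1 r (3 * (l / 16)) (l / 4) a.2) a.1 (3 * (l / 16))
      (2 * (l / 16) + 3 * (l / 16) + l / 4) (3 * r - r + 3 * (l / 16)) with hF
  have hF2 : ∀ a ∈ idx J, cp X (F a) ≤ 1 / 2 := by
    intro a ha
    obtain ⟨ha1, ha2⟩ := mem_idx.1 ha
    have hk := dist_centre_le (p := p) ha1 hr ha2
    rw [← hl] at hk
    have h3 := hHP h (k := centre p a.1 r (3 * (l / 16)) (l / 4) a.2) (ι := a.1) ha1.norm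
      (l := l) (C := C) (ε := l / 16) (η := 3 * (l / 16)) (ρ := 2 * (l / 16) + 3 * (l / 16) + l / 4)
      (R := 2 * r) (D := 3 * r - r + 3 * (l / 16)) (J := J) hJ (hgood a ha) ?_ ?_ (by positivity)
      le_rfl (by positivity) (by linarith) hl2.le (by linarith)
    · refine (cp_mono h.fin fun W _ hW => ?_).trans (h3.trans hC)
      exact HPArm.mono inter_subset_left hW
    · intro z hz x hx hzx
      refine hnet z ?_ x hx hzx
      rw [mem_closedBall] at hz ⊢
      have := dist_triangle z (centre p a.1 r (3 * (l / 16)) (l / 4) a.2) p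
      linarith
    · intro j
      have h4 := hb j
      have := dist_triangle (b j) (centre p a.1 r (3 * (l / 16)) (l / 4) a.2) p
      linarith
  have hinc : ∀ a ∈ idx J, ∀ W W', W ⊆ W' → F a W → F a W' := by
    intro a _ W W' hWW' hW
    exact HPArm.mono (inter_subset_inter_left _ hWW') hW
  have h3 := cp_none_ge h.fin (idx J) hinc (q := 1 / 2) (by norm_num) hF2
  have h4 : p0 J ≤ cp X (fun W => ∀ a ∈ idx J, ¬ F a W) := by
    refine le_trans ?_ h3
    unfold p0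
    rw [show (1 - 1 / 2 : ℝ) = 1 / 2 by norm_num]
    exact pow_le_pow_of_le_one (by norm_num) (by norm_num) (card_idx_le J)
  have h5 : cp X (fun W => SqArm (nbr X) (W ∩ Ann p r) p r (3 * r)) ≤
      cp X (fun W => ¬ ∀ a ∈ idx J, ¬ F a W) := by
    refine cp_mono h.fin fun W _ hW hn => ?_
    have hE : ∀ u v, nbr X u v → u ∈ W ∩ Ann p r → v ∈ W ∩ Ann p r → dist u v ≤ 2 * (l / 16) := by
      intro u v huv hu _
      apply edge_le (by positivity) hnet huv
      have h6 := norm_le_two_nsup (u - p)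
      rw [← Complex.dist_eq] at h6
      have h7 : nsup (u - p) < 25 / 8 * r := hu.2.2
      linarith
    obtain ⟨ι, hι, j, hj, hA⟩ := H995.SqArm.hp (ε := 2 * (l / 16)) (h := 3 * (l / 16))
      (s := l / 4) hW hE (by linarith) (by positivity) (by positivity) (by linarith)
    refine hn (ι, j) (mem_idx.2 ⟨hι, ?_⟩) hA
    refine hj.trans (le_of_eq ?_)
    rw [hl]
    field_simp
    ring
  rw [cp_not h.fin] at h5
  linarith

end Vale.Agent.P148.R2.H938
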